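import Vale.Agent.P281.H511.HKT.FibA
import Vale.Agent.P281.H603.TE.FibE
import Vale.Agent.P281.H834.HKT.Cv1
import Vale.Agent.P281.H834.HKT.Cv2
import Vale.Agent.P281.H638.HKT.A2
import Vale.Agent.P281.H615.HKT.Cvr

/-!
# P281, project T-HKT (helper511), block FIB: the assembly
-/

open Set Filter Metric MeasureTheory Vale.Agent.P281 Vale.Agent.P281.H713 Vale.Agent.P272.K
open Vale.Agent.P281.H713.TZ
open Vale.Agent.P281.H64 (Mark IsProperFibration)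
open Vale.Agent.P281.H603.TE (sub fsub fW core kfam_sub)
open Vale.Agent.P281.H399.QT (Qs One1 pj quo fquo)
open scoped Topology ContDiff Manifold ComplexConjugate ComplexOrder

noncomputable section

namespace Vale.Agent.P281.H511.HKT

open Vale.Agent.P281.H64.TK Vale.Agent.P281.H64.TK.TS Vale.Agent.P281.H83.HK
  Vale.Agent.P281.H83.HKT Vale.Agent.P281.H125.Fib Vale.Agent.P281.H969.K.FibN

attribute [local instance] H603.TE.ccs

/-- **The covering of the fibre.** -/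
theorem exists_cvr (I : Inputs) {p d : ℕ} {Z Y : Type} [TopologicalSpace Z] [T2Space Z]
    [ChartedSpace (Cm (p + d)) Z] [IsManifold 𝓘(ℂ, Cm (p + d)) ω Z] [TopologicalSpace Y]
    [T2Space Y] [ChartedSpace (Cm p) Y] [IsManifold 𝓘(ℂ, Cm p) ω Y] {f : Z → Y} {S : Set Y}
    (hd : 0 < d) (hf : ContMDiff 𝓘(ℂ, Cm (p + d)) 𝓘(ℂ, Cm p) ω f)
    (hpf : IsProperFibration (n := p + d) (p := p) f S) {y : Y} (hy : y ∉ S) {F : Type}
    [TopologicalSpace F] [T2Space F] [ChartedSpace (Cm d) F] {i : F → Z}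
    (hi : H511.Surf.IsFibre (Cm (p + d)) (Cm d) f y i) {a h : ℕ} {H : Type} [TopologicalSpace H]
    [ChartedSpace (Cm h) H] [T2Space H] [CompactSpace H] [SimplyConnectedSpace H]
    [IsManifold 𝓘(ℂ, Cm h) ω H] {Λ : AddSubgroup (Cm a)} {g : Cm a × H → F} (had : a + h = d)
    (hgs : Function.Surjective g)
    (hgi : ∀ x, ContMDiffAt (𝓘(ℂ, Cm a).prod 𝓘(ℂ, Cm h)) 𝓘(ℂ, Cm d) ω g x ∧
      Function.Injective (mfderiv (𝓘(ℂ, Cm a).prod 𝓘(ℂ, Cm h)) 𝓘(ℂ, Cm d) g x))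
    (hge : ∀ x x', g x = g x' ↔ x'.1 - x.1 ∈ Λ ∧ x.2 = x'.2) :
    ∃ (E Γ : Type) (_ : TopologicalSpace E) (_ : T2Space E) (_ : SimplyConnectedSpace E)
      (_ : Group Γ) (_ : MulAction Γ E) (_ : ContinuousConstSMul Γ E) (m : ℕ)
      (_ : (core Γ m).FiniteIndex) (𝓕 : Fam p d E Γ) (q : Cm p → E → Z)
      (χ : OpenPartialHomeomorph Y (Cm p)) (t : Cm p) (ht : t ∈ 𝓕.T),
      Model (n := p + d) f 𝓕 χ q ∧ χ.symm t = y ∧ ∃ (τ : E ≃ₜ Cm a × H) (l : core Γ m → Cm a),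
        (∀ e, i (g (τ e)) = q t e) ∧
        (∀ (k : core Γ m) e, τ ((k : Γ) • e) = ((τ e).1 + l k, (τ e).2)) ∧
        (∃ C : Set (Cm a), IsCompact C ∧ ∀ z, ∃ k : core Γ m, z + l k ∈ C) ∧
        H702.HKT.Cvr h (quo (sub (𝓕.at t ht) (core Γ m))) (fun v => pj (core Γ m) (τ.symm v)) := by
  obtain ⟨E, Γ, tE, t2, sc, gΓ, aΓ, cΓ, 𝓕, q, M, ht, -⟩ := I.ab p d Z Y f S hd hf hpf y hy
  have hyy : (chartAt (Cm p) y).symm (chartAt (Cm p) y y) = y :=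
    (chartAt (Cm p) y).left_inv (mem_chart_source _ y)
  have hqd := qd_of_model M ht
  have hFc : CompactSpace F := hi.compact
  have hFn : ConnectedSpace F := hi.connected
  have hFm : IsManifold 𝓘(ℂ, Cm d) ω F := hi.manifold
  set Q := q (chartAt (Cm p) y y) with hQ
  set B : Set Z := f ⁻¹' {(chartAt (Cm p) y).symm (chartAt (Cm p) y y)} with hB
  have hri : range Q = B := range_of_model M ht
  have hib : ∀ x, i x ∈ B := fun x => by
    show f (i x) = (chartAt (Cm p) y).symm (chartAt (Cm p) y y)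
    rw [hi.fibre x, hyy]
  have hcov : IsCoveringMap fun x : F => (⟨i x, hib x⟩ : B) :=
    H603.TE.isCovering hqd hi.hol hi.immersion hri hib
  have hcE : IsCoveringMap fun e : E => (⟨Q e, M.fib _ ht e⟩ : B) := M.cov _ ht
  have hcg : IsCoveringMap g := H834.HKT.gcov (h := h) (d := d) (Λ := Λ)
    ⟨hgs, fun x => (hgi x).1, fun x => (hgi x).2, hge⟩ had
  have hLP : LocallyPathConnectedSpace E := H603.TE.locPath (𝓕.at _ ht)
  have hLH : LocallyPathConnectedSpace H := ChartedSpace.locallyPathConnectedSpace (Cm h) H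
  have hsc : SimplyConnectedSpace (Cm a × H) := H834.HKT.sc_prod
  obtain ⟨x₀⟩ : Nonempty H := inferInstance
  obtain ⟨e₀, he₀⟩ : ∃ e₀, Q e₀ = i (g (0, x₀)) := by
    have h1 := hib (g (0, x₀))
    rw [← hri] at h1
    exact h1
  obtain ⟨τ, hτ⟩ := H834.HKT.exists_tau hcE hcov hcg (e₀ := e₀) (v₀ := (0, x₀))
    (Subtype.ext he₀.symm)
  have hτ' : ∀ e, i (g (τ e)) = Q e := fun e => congrArg Subtype.val (hτ e)
  have hQeq : ∀ e e', Q e = Q e' ↔ ∃ γ : Γ, γ • e = e' := M.eq _ ht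
  have hfin0 := H638.HKT.fin_fib hcov (⟨Q e₀, M.fib _ ht e₀⟩ : B)
  have hfin : (core Γ ((fun x : F => (⟨i x, hib x⟩ : B)) ⁻¹'
      {(⟨Q e₀, M.fib _ ht e₀⟩ : B)}).ncard).FiniteIndex :=
    H603.TE.coreS d _ E Γ (𝓕.at _ ht) hd
  obtain ⟨l, hl, hC, -⟩ := H638.HKT.a2 (𝓕.at _ ht) hcE hcov hcg hgs hge
    (fun e e' => Subtype.ext_iff.trans (hQeq e e')) τ hτ e₀ hfin0 le_rfl
  exact ⟨E, Γ, tE, t2, sc, gΓ, aΓ, cΓ, _, hfin, 𝓕, q, chartAt (Cm p) y, _, ht, M, hyy, τ, l, hτ',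
    hl, hC, H615.HKT.cvr_of hqd hi.hol hi.immersion had hgi τ hτ' _ l hl hC⟩

/-- **FIB** -/
theorem fibT_of (I : Inputs) (hBas : BasTStmt) (hRR : RRStmt) : FibTStmt := by
  intro p d Z Y _ _ _ _ _ _ _ _ f S w hd hf hpf hw y hy F _ hFT _ i hi hTH
  obtain ⟨a, h, H, tH, cH, Λ, g, had, hh, t2H, cpH, scH, mH, hH, hgs, hgi, hge⟩ := hTH
  obtain ⟨E, Γ, tE, t2, sc, gΓ, aΓ, cΓ, m, hfin, 𝓕, q, χ, t, ht, M, hyy, τ, l, -, -, -, hCvr⟩ :=
    exists_cvr I hd hf hpf hy hi had hgs hgi hge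
  refine ⟨a, m, (core Γ m).index, by omega, Nat.pos_of_ne_zero hfin.index_ne_zero, ?_⟩
  have h1 := ndegT_of_cvr I hBas hRR had.symm hh hf hw ht M hH hCvr
  rw [hyy] at h1
  exact h1

end Vale.Agent.P281.H511.HKT
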