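import Vale.Agent.P281.H511.HKT.Alg
import Vale.Agent.P281.H511.HK.Mrk

/-!
# P281, project T-HKT (helper511), block FORM: pull-back of closed holomorphic 1-forms
-/

open Set Filter Metric MeasureTheory Vale.Agent.P281.H713 Vale.Agent.P272.K
open scoped Topology ContDiff ComplexConjugate ComplexOrder

set_option linter.unusedSectionVars false

noncomputable section

namespace Vale.Agent.P281.H511.HKT

open Vale.Agent.P281.H64.TK Vale.Agent.P281.H64.TK.TS Vale.Agent.P281.H864.TS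
open Vale.Agent.P281.H864.K (holCompat_symm holCompat_compat jac_comp jac_id jac_congr)
open Vale.Agent.P281.H399.TS Vale.Agent.P281.H83.HK Vale.Agent.P281.H399.HK
open Vale.Agent.P281.H83.HKT (dt uu Hol1 GenU)

variable {d a : ℕ}

/-- the pull-back of a closed 1-form is closed -/
theorem dd_pull1 {θ : Cm d → Cm d} {z z' : Cm d} (h : AnalyticAt ℂ θ z) (hz : θ z = z')
    {u : Cm d → Matrix (Fin a) (Fin d) ℂ} (hu : ∀ j k, DifferentiableAt ℂ (fun q => u q j k) z')
    (closed : ∀ j k l, dd k (fun z => u z j l) z' = dd l (fun z => u z j k) z') (j : Fin a)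
    (k l : Fin d) :
    dd k (fun q => (u (θ q) * H64.TK.jac θ q) j l) z =
      dd l (fun q => (u (θ q) * H64.TK.jac θ q) j k) z := by
  have e : ∀ k l, dd k (fun q => (u (θ q) * H64.TK.jac θ q) j l) z =
      ∑ x, ((∑ m, dd m (fun q => u q j x) z' * H64.TK.jac θ z m k) * H64.TK.jac θ z x l +
        u z' j x * dd k (fun q => H64.TK.jac θ q x l) z) := by
    intro k l
    have e1 : (fun q => (u (θ q) * H64.TK.jac θ q) j l) =
        fun q => ∑ x, u (θ q) j x * H64.TK.jac θ q x l := by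
      funext q
      rw [Matrix.mul_apply]
    have h1 : ∀ x, HasFDerivAt (fun q => u (θ q) j x * H64.TK.jac θ q x l)
        (u (θ z) j x • fderiv ℂ (fun q => H64.TK.jac θ q x l) z +
          H64.TK.jac θ z x l • fderiv ℂ (fun q => u (θ q) j x) z) z := fun x =>
      ((by rw [hz]; exact hu j x : DifferentiableAt ℂ (fun q => u q j x) (θ z)).comp z
        h.differentiableAt).hasFDerivAt.mul (differentiableAt_jac h x l).hasFDerivAt
    have h2 := HasFDerivAt.fun_sum (u := Finset.univ) fun x _ => h1 x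
    show fderiv ℂ _ z (Pi.single k 1) = _
    rw [e1, h2.fderiv, sum_apply]
    refine Finset.sum_congr rfl fun x _ => ?_
    have h3 : fderiv ℂ (fun q => u (θ q) j x) z (Pi.single k 1) =
      ∑ m, dd m (fun q => u q j x) z' * H64.TK.jac θ z m k := dd_comp h hz (hu j x) k
    simp only [_root_.add_apply, _root_.smul_apply, smul_eq_mul]
    rw [h3, hz]
    show _ = (∑ m, dd m (fun q => u q j x) z' * H64.TK.jac θ z m k) * H64.TK.jac θ z x l +
        u z' j x * fderiv ℂ (fun q => H64.TK.jac θ q x l) z (Pi.single k 1)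
    ring
  rw [e, e]
  simp only [Finset.sum_add_distrib]
  congr 1
  · simp only [Finset.sum_mul]
    rw [Finset.sum_comm]
    refine Finset.sum_congr rfl fun m _ => Finset.sum_congr rfl fun x _ => ?_
    rw [closed j m x]
    ring
  · refine Finset.sum_congr rfl fun x _ => ?_
    rw [dd_jac_symm h x l k]

section transport

variable {E Γ : Type} [TopologicalSpace E] [Group Γ] [MulAction Γ E]
  {S S' : Sheets d E Γ} {i : Fin S.N} {j : Fin S'.N} {z z' : Cm d} {θ : Cm d → Cm d}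
  [Subsingleton Γ]

theorem ch1 {u : Fin S.N → Cm d → Matrix (Fin a) (Fin d) ℂ} (hu : Hol1 S u) {i j : Fin S.N}
    (hz : z ∈ ball (0 : Cm d) 3) (hz' : z' ∈ ball (0 : Cm d) 3)
    (h : H399.TS.HTr S S i j z z' θ) : u i z = u j z' * H64.TK.jac θ z :=
  hu.change i j z hz z' hz' θ h.an h.eq h.ev

open Classical in
/-- the forms `u` of `S'` on `S` -/
def pbU (S S' : Sheets d E Γ) (u : Fin S'.N → Cm d → Matrix (Fin a) (Fin d) ℂ) (i : Fin S.N)
    (z : Cm d) : Matrix (Fin a) (Fin d) ℂ :=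
  if h : ∃ p, Hd S S' i z p then u h.choose.1 h.choose.2.1 * H64.TK.jac h.choose.2.2 z else 0

theorem pbU_eq {u : Fin S'.N → Cm d → Matrix (Fin a) (Fin d) ℂ} (hu : Hol1 S' u)
    (hz' : z' ∈ ball (0 : Cm d) 3) (h : H399.TS.HTr S S' i j z z' θ) :
    pbU S S' u i z = u j z' * H64.TK.jac θ z := by
  have hex : ∃ p, Hd S S' i z p := ⟨(j, z', θ), hz', h⟩
  rw [pbU, dif_pos hex]
  obtain ⟨h1, h2⟩ := hex.choose_spec
  set q := hex.choose with hq
  obtain ⟨χ, hχ⟩ := exists_htr_self S' q.1 j h1 hz' (by rw [← h2.pt, h.pt])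
  rw [ch1 hu h1 hz' hχ, Matrix.mul_assoc, ← jac_comp' h2 hχ, jac_congr ((h2.comp hχ).uniq h hz')]

theorem pbU_near {u : Fin S'.N → Cm d → Matrix (Fin a) (Fin d) ℂ} (hu : Hol1 S' u)
    (hz : z ∈ ball (0 : Cm d) 3) (hz' : z' ∈ ball (0 : Cm d) 3)
    (h : H399.TS.HTr S S' i j z z' θ) :
    pbU S S' u i =ᶠ[𝓝 z] fun q => u j (θ q) * H64.TK.jac θ q := by
  filter_upwards [h.near hz hz'] with q hq
  exact pbU_eq hu hq.2.1 hq.2.2

theorem pbU_hol (hc : HolCompat S S') {u : Fin S'.N → Cm d → Matrix (Fin a) (Fin d) ℂ}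
    (hu : Hol1 S' u) : Hol1 S (pbU S S' u) where
  hol i a b := by
    intro z hz
    obtain ⟨j, z', hz', θ, h⟩ := exists_htr' hc i hz
    have h1 : (fun q => pbU S S' u i q a b) =ᶠ[𝓝 z] fun q =>
        ∑ x, u j (θ q) a x * H64.TK.jac θ q x b := by
      filter_upwards [pbU_near hu hz hz' h] with q hq
      rw [hq, Matrix.mul_apply]
    refine (DifferentiableAt.congr_of_eventuallyEq ?_ h1).differentiableWithinAt
    refine DifferentiableAt.fun_sum fun x _ => DifferentiableAt.fun_mul ?_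
      (differentiableAt_jac h.an _ _)
    have h1 : DifferentiableAt ℂ (fun v => u j v a x) (θ z) := by
      rw [h.eq]
      exact (hu.hol j a x).differentiableAt (isOpen_ball.mem_nhds hz')
    exact h1.comp z h.an.differentiableAt
  closed i z hz j k l := by
    obtain ⟨j', z', hz', θ, h⟩ := exists_htr' hc i hz
    have h1 : ∀ l a b, dd l (fun q => pbU S S' u i q a b) z =
        dd l (fun q => (u j' (θ q) * H64.TK.jac θ q) a b) z := by
      intro l a b
      have : (fun q => pbU S S' u i q a b) =ᶠ[𝓝 z] fun q =>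
          (u j' (θ q) * H64.TK.jac θ q) a b := by
        filter_upwards [pbU_near hu hz hz' h] with q hq
        rw [hq]
      show fderiv ℂ _ z _ = fderiv ℂ _ z _
      rw [this.fderiv_eq]
    rw [h1, h1]
    exact dd_pull1 h.an h.eq (fun a b => (hu.hol j' a b).differentiableAt
      (isOpen_ball.mem_nhds hz')) (hu.closed j' z' hz') j k l
  change i j z hz z' hz' θ h1 h2 h3 := by
    have h : H399.TS.HTr S S i j z z' θ := ⟨h1, h2, h3⟩
    obtain ⟨k, z'', hz'', χ, hχ⟩ := exists_htr' hc j hz'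
    rw [pbU_eq hu hz'' (h.comp hχ), pbU_eq hu hz'' hχ, jac_comp' h hχ, Matrix.mul_assoc]

end transport

/-! ### Biholomorphic maps -/

section gens
variable {E Γ : Type} [TopologicalSpace E] [Group Γ] [MulAction Γ E] {S : Sheets d E Γ}

/-- `a` closed 1-forms are combinations of the generators -/
theorem span_rows {u : Fin S.N → Cm d → Matrix (Fin a) (Fin d) ℂ}
    {s : Fin S.N → Cm d → Matrix (Fin d) (Fin d) ℂ} (h : GenU S u s) {b : ℕ}
    {v : Fin S.N → Cm d → Matrix (Fin b) (Fin d) ℂ} (hv : Hol1 S v) :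
    ∃ g : Matrix (Fin b) (Fin a) ℂ, ∀ i, ∀ z ∈ ball (0 : Cm d) 3, v i z = g * u i z := by
  have h1 : ∀ j : Fin b, Hol1 S (fun i z => Matrix.of fun (_ : Fin 1) k => v i z j k) := by
    intro j
    refine ⟨fun i _ k => hv.hol i j k, fun i z hz _ k l => hv.closed i z hz j k l,
      fun i i' z hz z' hz' θ h1 h2 h3 => ?_⟩
    have h4 := hv.change i i' z hz z' hz' θ h1 h2 h3
    ext r k
    have h5 := congrFun (congrFun h4 j) k
    rw [Matrix.mul_apply] at h5 ⊢
    exact h5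
  choose c hc using fun j => h.span1 _ (h1 j)
  refine ⟨Matrix.of fun j k => c j 0 k, fun i z hz => ?_⟩
  ext j k
  have h2 := congrFun (congrFun (hc j i z hz) 0) k
  rw [Matrix.mul_apply] at h2 ⊢
  exact h2

end gens

section pull
variable {E Γ : Type} [TopologicalSpace E] [Group Γ] [MulAction Γ E] [Subsingleton Γ]
  {E' Γ' : Type} [TopologicalSpace E'] [Group Γ'] [MulAction Γ' E'] [Subsingleton Γ']
  {S : Sheets d E Γ} {S' : Sheets d E' Γ'}

open Vale.Agent.P281.H511.HK (pS holCompat_of hol2_pS)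

theorem hol1_pS {τ : E ≃ₜ E'} {u : Fin S'.N → Cm d → Matrix (Fin a) (Fin d) ℂ} (hu : Hol1 S' u) :
    Hol1 (pS (Γ := Γ) S' τ) u where
  hol := hu.hol
  closed := hu.closed
  change i j z hz z' hz' θ h1 h2 h3 := by
    refine hu.change i j z hz z' hz' θ h1 h2 ?_
    filter_upwards [h3] with u hu
    exact τ.symm.injective hu

/-- **the pull-back of the generators** -/
theorem exists_mulU {τ : E ≃ₜ E'} (hτ : H511.TS.Hol S S' τ)
    {u : Fin S.N → Cm d → Matrix (Fin a) (Fin d) ℂ}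
    {s : Fin S.N → Cm d → Matrix (Fin d) (Fin d) ℂ} (h : GenU S u s)
    {u' : Fin S'.N → Cm d → Matrix (Fin a) (Fin d) ℂ}
    {s' : Fin S'.N → Cm d → Matrix (Fin d) (Fin d) ℂ} (hu' : Hol1 S' u') (hs' : Hol2 S' s') :
    ∃ (g : Matrix (Fin a) (Fin a) ℂ) (c : ℂ) (m : Matrix (Fin a) (Fin a) ℂ), m.transpose = -m ∧
      ∀ i j, ∀ z ∈ ball (0 : Cm d) 3, ∀ z' ∈ ball (0 : Cm d) 3, ∀ θ,
        H511.TS.HTr S S' τ i j z z' θ → u' j z' * H64.TK.jac θ z = g * u i z ∧
          (H64.TK.jac θ z).transpose * s' j z' * H64.TK.jac θ z = c • s i z + uu m (u i z) := by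
  have hc := holCompat_of (Γ := Γ) (Γ' := Γ') hτ
  obtain ⟨g, hg⟩ := span_rows h (pbU_hol hc (hol1_pS (Γ := Γ) (τ := τ) hu'))
  obtain ⟨c, m, hm, hcm⟩ := h.span2 _ (H399.HK.pbM_hol hc (hol2_pS (Γ := Γ) (τ := τ) hs'))
  refine ⟨g, c, m, hm, fun i j z hz z' hz' θ hθ => ?_⟩
  have hT : H399.TS.HTr S (pS (Γ := Γ) S' τ) i j z z' θ := by
    refine ⟨hθ.1, hθ.2.1, ?_⟩
    filter_upwards [hθ.2.2] with u hu
    show S.σ i u = τ.symm (S'.σ j (θ u))
    rw [← hu, τ.symm_apply_apply]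
  rw [← hg i z hz, ← hcm i z hz]
  exact ⟨(pbU_eq (hol1_pS hu') hz' hT).symm, (H399.HK.pbM_eq (hol2_pS hs') hz' hT).symm⟩

/-- **change of the bordered determinant** -/
theorem exists_dt (had : a ≤ d) {τ : E ≃ₜ E'} (hτ : H511.TS.Hol S S' τ)
    {u : Fin S.N → Cm d → Matrix (Fin a) (Fin d) ℂ}
    {s : Fin S.N → Cm d → Matrix (Fin d) (Fin d) ℂ} (h : GenU S u s)
    {u' : Fin S'.N → Cm d → Matrix (Fin a) (Fin d) ℂ}
    {s' : Fin S'.N → Cm d → Matrix (Fin d) (Fin d) ℂ} (hu' : Hol1 S' u') (hs' : Hol2 S' s') :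
    ∃ (g : Matrix (Fin a) (Fin a) ℂ) (c : ℂ) (m : Matrix (Fin a) (Fin a) ℂ), m.transpose = -m ∧
      (∀ i j, ∀ z ∈ ball (0 : Cm d) 3, ∀ z' ∈ ball (0 : Cm d) 3, ∀ θ,
        H511.TS.HTr S S' τ i j z z' θ → u' j z' * H64.TK.jac θ z = g * u i z ∧
          (H64.TK.jac θ z).transpose * s' j z' * H64.TK.jac θ z = c • s i z + uu m (u i z)) ∧
      ∀ i j, ∀ z ∈ ball (0 : Cm d) 3, ∀ z' ∈ ball (0 : Cm d) 3, ∀ θ,
        H511.TS.HTr S S' τ i j z z' θ → g.det ^ 2 * c ^ (d - a) * dt (u i z) (s i z) =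
          dt (u' j z') (s' j z') * (H64.TK.jac θ z).det ^ 2 := by
  obtain ⟨g, c, m, hm, hcm⟩ := exists_mulU hτ h hu' hs'
  refine ⟨g, c, m, hm, hcm, fun i j z hz z' hz' θ hθ => ?_⟩
  obtain ⟨h1, h2⟩ := hcm i j z hz z' hz' θ hθ
  rw [← dt_pull, h1, h2, dt_gc _ _ had]

end pull

end Vale.Agent.P281.H511.HKT
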