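import Vale.Agent.P281.H702.HKT.Gen
import Vale.Agent.P281.H399.HKT.One
import Vale.Agent.P281.H751.HKT.BasT
import Vale.Agent.P281.H603.TE.Core
import Vale.Agent.P281.H511.HKT.Pb
import Vale.Agent.P281.H83.HKT.Spec

/-!
# P281, project T-HKT (helper511), block FIB: from the covering `ℂ^a × H` of the fibre to `NDegT`
-/

open Set Filter Metric MeasureTheory Vale.Agent.P281 Vale.Agent.P281.H713 Vale.Agent.P272.K
open Vale.Agent.P281.H713.TZ
open Vale.Agent.P281.H64 (Mark IsProperFibration)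
open Vale.Agent.P281.H603.TE (sub fsub fW core kfam_sub)
open Vale.Agent.P281.H399.QT (Qs One1 pj quo fquo)
open scoped Topology ContDiff Manifold ComplexConjugate ComplexOrder

noncomputable section

namespace Vale.Agent.P281.H511.HKT

open Vale.Agent.P281.H64.TK Vale.Agent.P281.H64.TK.TS Vale.Agent.P281.H83.HK
  Vale.Agent.P281.H83.HKT

attribute [local instance] H603.TE.ccs

section count
variable {a g d : ℕ} {E Γ : Type} [TopologicalSpace E] [Group Γ] [MulAction Γ E]
  {S : Sheets d E Γ}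

/-- rows -/
theorem hol1_row' {u : Fin S.N → Cm d → Matrix (Fin a) (Fin d) ℂ} (h : Hol1 S u) (j : Fin a) :
    Hol1 S (fun i z => (u i z).submatrix (fun _ : Fin 1 => j) id) where
  hol i _ k := h.hol i j k
  closed i z hz _ k l := h.closed i z hz j k l
  change i i' z hz z' hz' θ h1 h2 h3 := by
    rw [h.change i i' z hz z' hz' θ h1 h2 h3]
    ext r k
    simp [Matrix.mul_apply]

/-- the number of the generators is at most the number of the elements of any spanning family -/
theorem le_of_span {u : Fin S.N → Cm d → Matrix (Fin a) (Fin d) ℂ}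
    {s : Fin S.N → Cm d → Matrix (Fin d) (Fin d) ℂ} (h : GenU S u s)
    {v : Fin S.N → Cm d → Matrix (Fin g) (Fin d) ℂ}
    (hsp : ∀ v' : Fin S.N → Cm d → Matrix (Fin 1) (Fin d) ℂ, Hol1 S v' →
      ∃ c : Matrix (Fin 1) (Fin g) ℂ, ∀ i, ∀ z ∈ ball (0 : Cm d) 3, v' i z = c * v i z) :
    a ≤ g := by
  choose c hc using fun j => hsp _ (hol1_row' h.one j)
  set C : Matrix (Fin a) (Fin g) ℂ := Matrix.of fun j k => c j 0 k with hC
  have h1 : ∀ i, ∀ z ∈ ball (0 : Cm d) 3, u i z = C * v i z := by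
    intro i z hz
    ext j k
    have h2 := congrFun (congrFun (hc j i z hz) 0) k
    rw [Matrix.mul_apply] at h2 ⊢
    exact h2
  obtain ⟨i, z, hz, hne⟩ := h.ne
  have hinj : Function.Injective C.vecMulLinear := by
    rw [← LinearMap.ker_eq_bot, LinearMap.ker_eq_bot']
    intro x hx
    have hx' : Matrix.vecMul x C = 0 := hx
    by_contra h0
    refine hne ?_
    rw [dt]
    refine Matrix.exists_vecMul_eq_zero_iff.1 ⟨Sum.elim 0 x, fun h3 => h0 ?_, ?_⟩
    · funext k
      exact congrFun h3 (Sum.inr k)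
    · rw [Matrix.vecMul_fromBlocks, h1 i z hz]
      have h4 : Matrix.vecMul (x : Fin a → ℂ) (-(C * v i z)) = 0 := by
        rw [Matrix.vecMul_neg, ← Matrix.vecMul_vecMul, hx', Matrix.zero_vecMul, neg_zero]
      simp only [Sum.elim_comp_inl, Sum.elim_comp_inr]
      rw [h4, Matrix.zero_vecMul, Matrix.zero_vecMul, Matrix.vecMul_zero, add_zero, add_zero]
      funext k
      rcases k with k | k <;> rfl
  have h5 := LinearMap.finrank_le_finrank_of_injective hinj
  simpa using h5

/-- additive functions with vanishing differential are constant -/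
theorem const_of_dF [PreconnectedSpace E] [ContinuousConstSMul Γ E] {h : E → ℂ} {b : Γ → ℂ}
    (hh : Add S h b) (h0 : ∀ i, ∀ z ∈ ball (0 : Cm d) 3, ∀ k, dd k (fun z => h (S.σ i z)) z = 0)
    (e e' : E) : h e = h e' := by
  have hcon : ∀ i, ∀ z ∈ ball (0 : Cm d) 3, ∀ z' ∈ ball (0 : Cm d) 3,
      h (S.σ i z) = h (S.σ i z') := by
    intro i z hz z' hz'
    refine (convex_ball (0 : Cm d) 3).is_const_of_fderivWithin_eq_zero (𝕜 := ℂ) (hh.hol i) ?_ hz hz'
    intro w hw
    rw [fderivWithin_of_isOpen isOpen_ball hw]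
    refine ContinuousLinearMap.ext fun x => ?_
    rw [H751.HKT.clm_sum (fderiv ℂ (fun z => h (S.σ i z)) w) x]
    refine (Finset.sum_eq_zero fun k _ => ?_).trans (zero_apply _).symm
    have h2 : fderiv ℂ (fun z => h (S.σ i z)) w (Pi.single k 1) = 0 := h0 i w hw k
    rw [h2, smul_zero]
  have hloc : IsLocallyConstant h := by
    rw [IsLocallyConstant.iff_eventually_eq]
    intro e
    obtain ⟨γ, i, z, hz, rfl⟩ := S.cover e
    have hz3 := H603.K.Sh.mem3 hz
    rw [← H603.K.Sh.map_nhds_smul S γ i hz3, eventually_map]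
    filter_upwards [isOpen_ball.mem_nhds hz3] with u hu
    have h1 := hh.add γ (S.σ i u)
    have h2 := hh.add γ (S.σ i z)
    have h3 := hcon i u hu z hz3
    rw [h1, h2, h3]
  exact hloc.apply_eq_of_preconnectedSpace e e'

end count

section count2
variable {a g d : ℕ} {E K : Type} [TopologicalSpace E] [Group K] [MulAction K E]
  {S : Sheets d E K}

/-- the differentials of a basis of the additive functions are independent -/
theorem le_of_indep [PreconnectedSpace E] [Nonempty E] [ContinuousConstSMul K E]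
    {F : E → Fin g → ℂ} {c : K → Fin g → ℂ} (hB : IsBas S F c)
    {u : Fin S.N → Cm d → Matrix (Fin a) (Fin d) ℂ} {C : Matrix (Fin g) (Fin a) ℂ}
    (hC : ∀ i, ∀ z ∈ ball (0 : Cm d) 3, dF S F i z = C * u i z) : g ≤ a := by
  obtain ⟨e⟩ := ‹Nonempty E›
  have hinj : Function.Injective C.vecMulLinear := by
    rw [← LinearMap.ker_eq_bot, LinearMap.ker_eq_bot']
    intro x hx
    have hx' : Matrix.vecMul x C = 0 := hx
    have hA := H751.HKT.add_comb hB x
    have hcon := const_of_dF hA (fun i z hz k => by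
      have h1 : HasFDerivAt (fun z => ∑ j, x j * F (S.σ i z) j)
          (∑ j, x j • fderiv ℂ (fun z => F (S.σ i z) j) z) z :=
        HasFDerivAt.fun_sum fun j _ =>
          (((hB.add j).hol i).differentiableAt (isOpen_ball.mem_nhds hz)).hasFDerivAt.const_mul _
      have h2 : dd k (fun z => ∑ j, x j * F (S.σ i z) j) z = Matrix.vecMul x (dF S F i z) k := by
        show fderiv ℂ _ z (Pi.single k 1) = _
        rw [h1.fderiv]
        simp only [sum_apply, smul_apply, smul_eq_mul]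
        rfl
      have h3 : dd k (fun z => ∑ j, x j * F (S.σ i z) j) z = 0 := by
        rw [h2, hC i z hz, ← Matrix.vecMul_vecMul, hx', Matrix.zero_vecMul]
        rfl
      exact h3)
    refine hB.indep x fun γ => ?_
    have h4 := hA.add γ e
    have h5 := hcon (γ • e) e
    linear_combination h5 - h4
  have h5 := LinearMap.finrank_le_finrank_of_injective hinj
  simpa using h5

end count2

/-- the rationality of the radical (helper842) -/
def RRStmt : Prop :=
  ∀ (a h d : ℕ) (M Γ H : Type) [TopologicalSpace M] [T2Space M] [PreconnectedSpace M] [Group Γ]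
    [Subsingleton Γ] [MulAction Γ M] [ContinuousConstSMul Γ M] [TopologicalSpace H]
    [ChartedSpace (Cm h) H] [T2Space H] [CompactSpace H] [SimplyConnectedSpace H]
    [IsManifold 𝓘(ℂ, Cm h) ω H] (S : Sheets d M Γ) (Ψ : Cm a × H → M)
    (u : Fin S.N → Cm d → Matrix (Fin a) (Fin d) ℂ), d = a + h → 2 ≤ h → H702.HKT.Cvr h S Ψ →
    Sympl h H → Hol1 S u →
    (∀ v : Fin S.N → Cm d → Matrix (Fin 1) (Fin d) ℂ, Hol1 S v →
      ∃ c : Matrix (Fin 1) (Fin a) ℂ, ∀ i, ∀ z ∈ ball (0 : Cm d) 3, v i z = c * u i z) →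
    ∀ w, Kah S w → RatRad S u (kw w)

section core
variable {p d a h m : ℕ} {Z Y : Type} [TopologicalSpace Z] [T2Space Z]
  [ChartedSpace (Cm (p + d)) Z] [IsManifold 𝓘(ℂ, Cm (p + d)) ω Z] [TopologicalSpace Y]
  [T2Space Y] [ChartedSpace (Cm p) Y] [IsManifold 𝓘(ℂ, Cm p) ω Y]

/-- **from the covering to `NDegT`** -/
theorem ndegT_of_cvr (I : Inputs) (hBas : BasTStmt) (hRR : RRStmt) (had : d = a + h) (hh : 2 ≤ h)
    {f : Z → Y} (hf : ContMDiff 𝓘(ℂ, Cm (p + d)) 𝓘(ℂ, Cm p) ω f)
    {w : Chart (p + d) Z → Cm (p + d) → Matrix (Fin (p + d)) (Fin (p + d)) ℂ} (hw : IsKahler w)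
    {E Γ : Type} [TopologicalSpace E] [T2Space E] [SimplyConnectedSpace E] [Group Γ]
    [MulAction Γ E] [ContinuousConstSMul Γ E] [(core Γ m).FiniteIndex] {𝓕 : Fam p d E Γ}
    {q : Cm p → E → Z} {χ : OpenPartialHomeomorph Y (Cm p)} {t : Cm p} (ht : t ∈ 𝓕.T)
    (hM : Model (n := p + d) f 𝓕 χ q) {H : Type} [TopologicalSpace H] [ChartedSpace (Cm h) H]
    [T2Space H] [CompactSpace H] [SimplyConnectedSpace H] [IsManifold 𝓘(ℂ, Cm h) ω H]
    (hH : Sympl h H) {Ψ : Cm a × H → Qs (core Γ m) E}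
    (hΨ : H702.HKT.Cvr h (quo (sub (𝓕.at t ht) (core Γ m))) Ψ) :
    NDegT p d a m (core Γ m).index f (χ.symm t) := by
  have hd : 0 < d := by omega
  obtain ⟨W, -, hK⟩ := I.w p d Z Y f w E Γ 𝓕 q _ hf hM hw
  obtain ⟨u, s, hgen⟩ := H702.HKT.genU had hΨ hH
  obtain ⟨n, ⟨M⟩⟩ := I.f1 d E (core Γ m) (sub (𝓕.at t ht) (core Γ m)) hd
  obtain ⟨g, T', hT', F, c, hn, -, htT, hbas, -, -⟩ :=
    I.d p d E (core Γ m) (fsub 𝓕 (core Γ m)) _ hd (kfam_sub 𝓕 (core Γ m) hK) n M t ht
  have hng : n = g + g := by omega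
  subst hng
  have hB : IsBas (sub (𝓕.at t ht) (core Γ m)) (F t) (c t) := hbas t htT
  have hkah : Kah (sub (𝓕.at t ht) (core Γ m)) (fW (core Γ m) W t) :=
    H603.TE.kah_fW (core Γ m) hK ht
  obtain ⟨h1, h2, -⟩ := hBas d g E (core Γ m) (sub (𝓕.at t ht) (core Γ m)) _ M (F t) (c t) hd
    hkah hB
  have hag : a ≤ g := le_of_span hgen h2
  obtain ⟨C, hC⟩ := span_rows hgen h1
  have hga : g ≤ a := le_of_indep hB hC
  have hgg : g = a := le_antisymm hga hag
  subst hgg
  have hT2 : T2Space (Qs (core Γ m) E) := H399.QT.t2_quo (sub (𝓕.at t ht) (core Γ m))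
  have hgen' := H399.HKT.genU_basis hgen h1 h2
  have hcn : PreconnectedSpace (Qs (core Γ m) E) := by
    have h3 : Function.Surjective (pj (core Γ m) : E → Qs (core Γ m) E) := H399.QT.pj_surj
    have h4 := h3.connectedSpace H399.QT.continuous_pj
    infer_instance
  exact ⟨E, Γ, inferInstance, inferInstance, inferInstance, inferInstance, inferInstance,
    inferInstance, inferInstance, 𝓕, q, χ, t, ht, hM, rfl, rfl, ⟨M⟩, F t, c t, hB, ⟨s, hgen'⟩,
    fun w' hw' => hRR _ h d (Qs (core Γ m) E) One1 H (quo (sub (𝓕.at t ht) (core Γ m))) Ψ _ had hh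
      hΨ hH h1 h2 w' (H399.QT.kah_quo hw')⟩

end core

end Vale.Agent.P281.H511.HKT
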