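import Vale.Agent.P281.H511.HKT.Fin
import Vale.Agent.P281.H152.SC.CoreG

/-!
# P281, project T-HKT (helper511): block FORM, for the class C
-/

open Set Filter Metric MeasureTheory Vale.Agent.P281 Vale.Agent.P281.H713 Vale.Agent.P272.K
open scoped Topology ContDiff Manifold ComplexConjugate ENNReal

noncomputable section

namespace Vale.Agent.P281.H511.HKT

open Vale.Agent.P281.H64.TK Vale.Agent.P281.H64.TK.TS
open Vale.Agent.P281.H83.HK Vale.Agent.P281.H83.HKT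

/-- **block FORM**, in the form of the class C -/
theorem formTG (I : Inputs) (hF : FormsStmt) (hFT : FormsTStmt) (hPos : PosTStmt)
    (hBil : BilTStmt) (hPull : PullTStmt) (hTwo : TwoTStmt) (hBas : BasTStmt) (hTh : ThCmpStmt)
    (hPer : PerTStmt) (p d a m N : ℕ) (Z Y : Type) [TopologicalSpace Z] [T2Space Z]
    [ChartedSpace (Cm (p + d)) Z] [IsManifold 𝓘(ℂ, Cm (p + d)) ω Z] [TopologicalSpace Y]
    [T2Space Y] [ChartedSpace (Cm p) Y] [IsManifold 𝓘(ℂ, Cm p) ω Y] (f : Z → Y) (S : Set Y)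
    (w : Chart (p + d) Z → Cm (p + d) → Matrix (Fin (p + d)) (Fin (p + d)) ℂ)
    (B₁ : Matrix (Fin (a + a)) (Fin (a + a)) ℝ) (k : ℕ) (B : Matrix (Fin k) (Fin k) ℝ)
    (v : Fin k → ℝ) (R : ℝ) (hN : 0 < N) (had : a + 2 ≤ d)
    (hf : ContMDiff 𝓘(ℂ, Cm (p + d)) 𝓘(ℂ, Cm p) ω f) (hw : IsKahler w)
    (hL : ∀ y₀ ∉ S, ∃ L : LocX (p := p) (d := d) f w a m N B₁ B v R, y₀ ∈ L.χ.source ∧
      L.χ y₀ ∈ L.T' ∧ ∀ t ∈ L.T', L.χ.symm t ∉ S) : H152.SC.HasPerG p d 0 f S := by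
  obtain ⟨ι, U, π, P, η, h1, h2⟩ := formTO I hF hFT hPos hBil hPull hTwo hBas hTh hPer p d a m N Z Y
    f S w B₁ k B v R hN had hf hw hL
  exact ⟨EuclideanSpace ℂ (Fin a), inferInstance, inferInstance, inferInstance, a + a, k, 1, 1,
    2 * N, 2 * N, H64.Qf B₁, fun _ => B, fun _ => v, fun _ => (d - a) * N, ι, U, π, P, η,
    by omega, h1, h2⟩

end Vale.Agent.P281.H511.HKT
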