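import Vale.Agent.P281.H83.HKT.Defs

/-!
# P281, project T-HKT (helper511), block FORM: the bordered determinant
-/

open Set Filter Metric MeasureTheory Vale.Agent.P272.K
open scoped Topology ContDiff ComplexConjugate ComplexOrder

noncomputable section

namespace Vale.Agent.P281.H511.HKT

open Vale.Agent.P281.H64.TK Vale.Agent.P281.H64.TK.TS Vale.Agent.P281.H83.HK
open Vale.Agent.P281.H83.HKT (dt uu)

variable {a d : ℕ} (u : Matrix (Fin a) (Fin d) ℂ) (s : Matrix (Fin d) (Fin d) ℂ)

/-- pull-back -/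
theorem dt_pull (G : Matrix (Fin d) (Fin d) ℂ) :
    dt (u * G) (G.transpose * s * G) = dt u s * G.det ^ 2 := by
  have h1 : Matrix.fromBlocks (G.transpose * s * G) (u * G).transpose (-(u * G)) 0 =
      (Matrix.fromBlocks G 0 0 (1 : Matrix (Fin a) (Fin a) ℂ)).transpose *
        Matrix.fromBlocks s u.transpose (-u) 0 *
          Matrix.fromBlocks G 0 0 (1 : Matrix (Fin a) (Fin a) ℂ) := by
    rw [Matrix.fromBlocks_transpose, Matrix.fromBlocks_multiply, Matrix.fromBlocks_multiply]
    simp [Matrix.transpose_mul]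
  rw [dt, h1, Matrix.det_mul, Matrix.det_mul, Matrix.det_transpose, Matrix.det_fromBlocks_zero₂₁,
    Matrix.det_one, mul_one, dt]
  ring

/-- the forms `u_j ∧ u_k` do not count -/
theorem dt_uu (m : Matrix (Fin a) (Fin a) ℂ) : dt u (s + uu m u) = dt u s := by
  have h1 : Matrix.fromBlocks (s + uu m u) u.transpose (-u) 0 =
      Matrix.fromBlocks (1 : Matrix (Fin d) (Fin d) ℂ) (-(u.transpose * m)) 0
        (1 : Matrix (Fin a) (Fin a) ℂ) * Matrix.fromBlocks s u.transpose (-u) 0 := by
    rw [Matrix.fromBlocks_multiply]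
    simp [uu]
  rw [dt, h1, Matrix.det_mul, Matrix.det_fromBlocks_zero₂₁, Matrix.det_one, Matrix.det_one,
    mul_one, one_mul, dt]

/-- change of the 1-forms -/
theorem dt_g (g : Matrix (Fin a) (Fin a) ℂ) : dt (g * u) s = g.det ^ 2 * dt u s := by
  have h1 : Matrix.fromBlocks s (g * u).transpose (-(g * u)) 0 =
      Matrix.fromBlocks (1 : Matrix (Fin d) (Fin d) ℂ) 0 0 g *
        Matrix.fromBlocks s u.transpose (-u) 0 *
          (Matrix.fromBlocks (1 : Matrix (Fin d) (Fin d) ℂ) 0 0 g).transpose := by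
    rw [Matrix.fromBlocks_transpose, Matrix.fromBlocks_multiply, Matrix.fromBlocks_multiply]
    simp [Matrix.transpose_mul]
  rw [dt, h1, Matrix.det_mul, Matrix.det_mul, Matrix.det_transpose, Matrix.det_fromBlocks_zero₂₁,
    Matrix.det_one, one_mul, dt]
  ring

theorem continuous_dt : Continuous fun q : Matrix (Fin a) (Fin d) ℂ × Matrix (Fin d) (Fin d) ℂ =>
    dt q.1 q.2 :=
  Continuous.matrix_det (Continuous.matrix_fromBlocks continuous_snd
    continuous_fst.matrix_transpose continuous_fst.neg continuous_const)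

/-- multiples of the 2-form -/
theorem dt_smul (had : a ≤ d) (c : ℂ) : dt u (c • s) = c ^ (d - a) * dt u s := by
  have h1 : ∀ c : ℂ, c ^ a * dt u (c • s) = c ^ d * dt u s := by
    intro c
    have h2 : Matrix.fromBlocks (c • s) u.transpose (-u) 0 *
        Matrix.fromBlocks (1 : Matrix (Fin d) (Fin d) ℂ) 0 0
          (c • (1 : Matrix (Fin a) (Fin a) ℂ)) =
        Matrix.fromBlocks (c • (1 : Matrix (Fin d) (Fin d) ℂ)) 0 0
          (1 : Matrix (Fin a) (Fin a) ℂ) * Matrix.fromBlocks s u.transpose (-u) 0 := by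
      rw [Matrix.fromBlocks_multiply, Matrix.fromBlocks_multiply]
      simp
    have h3 := congrArg Matrix.det h2
    rw [Matrix.det_mul, Matrix.det_mul, Matrix.det_fromBlocks_zero₂₁,
      Matrix.det_fromBlocks_zero₂₁, Matrix.det_smul, Matrix.det_smul, Matrix.det_one,
      Matrix.det_one, Fintype.card_fin, Fintype.card_fin] at h3
    rw [dt, dt]
    linear_combination h3
  have h4 : (fun c : ℂ => dt u (c • s)) = fun c => c ^ (d - a) * dt u s := by
    refine Continuous.ext_on (dense_compl_singleton (0 : ℂ)) ?_ ?_ fun c hc => ?_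
    · exact continuous_dt.comp (continuous_const.prodMk (continuous_id.smul continuous_const))
    · exact (continuous_pow _).mul continuous_const
    · have hc' : c ^ a ≠ 0 := pow_ne_zero _ hc
      refine mul_left_cancel₀ hc' ?_
      have h5 : c ^ d = c ^ a * c ^ (d - a) := by
        rw [← pow_add, Nat.add_sub_of_le had]
      show c ^ a * dt u (c • s) = c ^ a * (c ^ (d - a) * dt u s)
      rw [h1, h5, mul_assoc]
  exact congrFun h4 c

/-- **change of the generators** -/
theorem dt_gc (had : a ≤ d) (g : Matrix (Fin a) (Fin a) ℂ) (c : ℂ) (m : Matrix (Fin a) (Fin a) ℂ) :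
    dt (g * u) (c • s + uu m u) = g.det ^ 2 * c ^ (d - a) * dt u s := by
  rw [dt_g, dt_uu, dt_smul u s had, mul_assoc]

theorem analyticAt_det' {V ι : Type} [NormedAddCommGroup V] [NormedSpace ℂ V] [Fintype ι]
    [DecidableEq ι] {s : V → Matrix ι ι ℂ} {z : V}
    (h : ∀ j k, AnalyticAt ℂ (fun u => s u j k) z) : AnalyticAt ℂ (fun u => (s u).det) z := by
  simp only [Matrix.det_apply']
  refine Finset.analyticAt_fun_sum _ fun σ _ => ?_
  exact analyticAt_const.mul (Finset.analyticAt_fun_prod _ fun i _ => h _ _)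

/-- the determinant is analytic -/
theorem analyticAt_dt {V : Type} [NormedAddCommGroup V] [NormedSpace ℂ V]
    {u : V → Matrix (Fin a) (Fin d) ℂ} {s : V → Matrix (Fin d) (Fin d) ℂ} {z : V}
    (hu : ∀ j k, AnalyticAt ℂ (fun q => u q j k) z)
    (hs : ∀ j k, AnalyticAt ℂ (fun q => s q j k) z) :
    AnalyticAt ℂ (fun q => dt (u q) (s q)) z := by
  refine analyticAt_det' fun j k => ?_
  rcases j with j | j <;> rcases k with k | k
  · exact hs j k
  · exact hu k j
  · exact (hu j k).neg
  · exact analyticAt_const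

end Vale.Agent.P281.H511.HKT
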