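import Vale.Agent.P281.H511.HKT.Pb
import Vale.Agent.P281.H399.QT.Cmp
import Vale.Agent.P281.H303.K.Compat

/-!
# P281, project T-HKT (helper511), block FORM: the character of the group
-/

open Set Filter Metric MeasureTheory Vale.Agent.P281.H713 Vale.Agent.P272.K
open scoped Topology ContDiff ComplexConjugate ComplexOrder

set_option linter.unusedSectionVars false

noncomputable section

namespace Vale.Agent.P281.H511.HKT

open Vale.Agent.P281.H64.TK Vale.Agent.P281.H64.TK.TS Vale.Agent.P281.H603.K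
open Vale.Agent.P281.H603.TE (sub fsub fW idx rep exists_rep ccs sub_sigma Cmp res)
open Vale.Agent.P281.H511.TS (HTr Hol)
open Vale.Agent.P281.H399.QT (Qs pj quo fquo pj_eq pj_smul qmap One1 cmp_quo)
open Vale.Agent.P281.H83.HK (Hol2)
open Vale.Agent.P281.H83.HKT (dt uu Hol1 GenU)

attribute [local instance] ccs

variable {d : ℕ}

section quo
variable {E Γ : Type} [TopologicalSpace E] [Group Γ] [MulAction Γ E] [ContinuousConstSMul Γ E]

theorem quo_P (S : Sheets d E Γ) (i : Fin S.N) : (quo S).P i = S.P i := by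
  ext z
  constructor
  · rintro ⟨h1, h2⟩
    refine ⟨h1, fun j hj γ w hw he => h2 j hj 1 w hw ?_⟩
    show pj Γ (S.σ j w) = pj Γ (S.σ i z)
    rw [← he, pj_smul]
  · rintro ⟨h1, h2⟩
    refine ⟨h1, fun j hj γ w hw he => ?_⟩
    obtain ⟨γ', hγ'⟩ := pj_eq.1 (he : pj Γ (S.σ j w) = pj Γ (S.σ i z))
    exact h2 j hj γ'⁻¹ w hw (by rw [← hγ', inv_smul_smul])

/-- the integral over the quotient -/
theorem quo_int (S : Sheets d E Γ) (D : Fin S.N → Cm d → ℂ) : (quo S).int D = S.int D := by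
  refine Finset.sum_congr rfl fun i _ => ?_
  exact congrArg (fun A : Set (Cm d) => ∫ z in A, D i z) (quo_P S i)

end quo

section maps
variable {E Γ : Type} [TopologicalSpace E] [Group Γ] [MulAction Γ E] [ContinuousConstSMul Γ E]
  {E' Γ' : Type} [TopologicalSpace E'] [Group Γ'] [MulAction Γ' E'] [ContinuousConstSMul Γ' E']
  {S : Sheets d E Γ} {S' : Sheets d E' Γ'}
  {w : Fin S.N → Cm d → Matrix (Fin d) (Fin d) ℂ}
  {w' : Fin S'.N → Cm d → Matrix (Fin d) (Fin d) ℂ}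

/-- the map of the quotients -/
theorem exists_qm {τ : E ≃ₜ E'} {ρ : Γ ≃* Γ'} (H : Cmp S w S' w' τ ρ) :
    ∃ σ : Qs Γ E ≃ₜ Qs Γ' E', (∀ e, σ (pj Γ e) = pj Γ' (τ e)) ∧ Hol (quo S) (quo S') σ := by
  refine ⟨qmap τ ρ H.eqv, fun e => rfl, fun i j z hz z' hz' he => ?_⟩
  have he' : (quo S).σ i z = (1 : One1) • (qmap τ ρ H.eqv).symm ((quo S').σ j z') := by
    rw [one_smul, ← he, Homeomorph.symm_apply_apply]
  obtain ⟨θ, h1, h2, h3, h4⟩ := (cmp_quo H).hol i j z hz z' hz' 1 he'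
  refine ⟨θ, ⟨h1, h2, ?_⟩, h3⟩
  filter_upwards [h4] with u hu
  have hu' : (quo S).σ i u = (1 : One1) • (qmap τ ρ H.eqv).symm ((quo S').σ j (θ u)) := hu
  rw [hu', one_smul, Homeomorph.apply_symm_apply]

end maps

section chr
variable {a : ℕ} {E Γ : Type} [TopologicalSpace E] [Group Γ] [MulAction Γ E]
  [ContinuousConstSMul Γ E] {K : Subgroup Γ} [K.FiniteIndex] [hK : K.Normal] {S : Sheets d E Γ}

variable (S K) in
/-- the translation by `γ` on the quotient -/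
theorem exists_tr (γ : Γ) : ∃ σ : Qs K E ≃ₜ Qs K E, (∀ e, σ (pj K e) = pj K (γ • e)) ∧
    Hol (quo (sub S K)) (quo (sub S K)) σ := by
  have h0 : Cmp S (fun _ _ => 0) S (fun _ _ => 0) (Homeomorph.refl E) (MulEquiv.refl Γ) := by
    refine ⟨fun _ _ => rfl, ?_, ?_⟩
    · exact H303.K.holCompat_refl S
    · intro i j z _ z' _ γ θ _ _ _
      simp
  have h1 := (h0.smul γ).sub (K := K) (K' := K) fun δ => by
    show γ * δ * γ⁻¹ ∈ K ↔ δ ∈ K
    exact ⟨fun h => by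
      have h2 := hK.conj_mem _ h γ⁻¹
      rw [inv_inv] at h2
      have h3 : γ⁻¹ * (γ * δ * γ⁻¹) * γ = δ := by group
      rwa [h3] at h2, fun h => hK.conj_mem _ h γ⟩
  obtain ⟨σ, h2, h3⟩ := exists_qm h1
  exact ⟨σ, fun e => h2 e, h3⟩

variable (S K) in
/-- `θ` is a local expression of the translation by `γ` -/
def GTr (γ : Γ) (i j : Fin (sub S K).N) (z z' : Cm d) (θ : Cm d → Cm d) : Prop :=
  AnalyticAt ℂ θ z ∧ θ z = z' ∧ ∀ᶠ u in 𝓝 z,
    pj K (γ • (sub S K).σ i u) = pj K ((sub S K).σ j (θ u))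

theorem GTr.htr {γ : Γ} {i j : Fin (sub S K).N} {z z' : Cm d} {θ : Cm d → Cm d}
    (h : GTr K S γ i j z z' θ) {σ : Qs K E ≃ₜ Qs K E} (hσ : ∀ e, σ (pj K e) = pj K (γ • e)) :
    HTr (quo (sub S K)) (quo (sub S K)) σ i j z z' θ := by
  refine ⟨h.1, h.2.1, ?_⟩
  filter_upwards [h.2.2] with u hu
  exact (hσ _).trans hu

theorem gtr_of {γ : Γ} {i j : Fin (sub S K).N} {z z' : Cm d} {θ : Cm d → Cm d}
    {σ : Qs K E ≃ₜ Qs K E} (hσ : ∀ e, σ (pj K e) = pj K (γ • e))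
    (h : HTr (quo (sub S K)) (quo (sub S K)) σ i j z z' θ) : GTr K S γ i j z z' θ := by
  refine ⟨h.1, h.2.1, ?_⟩
  filter_upwards [h.2.2] with u hu
  exact (hσ _).symm.trans hu

variable (S) in
/-- all points have a translate -/
theorem exists_gtr (γ : Γ) (i : Fin (sub S K).N) {z : Cm d} (hz : z ∈ ball (0 : Cm d) 3) :
    ∃ j, ∃ z' ∈ ball (0 : Cm d) 3, ∃ θ, GTr K S γ i j z z' θ := by
  obtain ⟨σ, hσ, hh⟩ := exists_tr K S γ
  obtain ⟨δ, j, z', hz', he⟩ := (quo (sub S K)).cover (σ ((quo (sub S K)).σ i z))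
  have he' : σ ((quo (sub S K)).σ i z) = (quo (sub S K)).σ j z' := by
    rw [← he, Subsingleton.elim δ 1, one_smul]
  obtain ⟨θ, h1, -⟩ := hh i j z hz z' (Sh.mem3 hz') he'
  exact ⟨j, z', Sh.mem3 hz', θ, gtr_of hσ h1⟩

/-- composition -/
theorem exists_gtr_comp {γ γ' : Γ} {i j : Fin (sub S K).N} {z z' : Cm d} {θ : Cm d → Cm d}
    (hz : z ∈ ball (0 : Cm d) 3) (hz' : z' ∈ ball (0 : Cm d) 3)
    (h : GTr K S (γ' * γ) i j z z' θ) :
    ∃ k, ∃ v ∈ ball (0 : Cm d) 3, ∃ θ₁ θ₂, GTr K S γ i k z v θ₁ ∧ GTr K S γ' k j v z' θ₂ ∧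
      H64.TK.jac θ z = H64.TK.jac θ₂ v * H64.TK.jac θ₁ z := by
  obtain ⟨k, v, hv, θ₁, h1⟩ := exists_gtr S γ i hz
  obtain ⟨σ, hσ, hh⟩ := exists_tr K S γ'
  have e1 : σ ((quo (sub S K)).σ k v) = (quo (sub S K)).σ j z' := by
    have e2 : pj K ((γ' * γ) • (sub S K).σ i z) = pj K ((sub S K).σ j (θ z)) :=
      h.2.2.self_of_nhds
    have e3 : pj K (γ • (sub S K).σ i z) = pj K ((sub S K).σ k (θ₁ z)) := h1.2.2.self_of_nhds
    rw [h.2.1, mul_smul, ← hσ, e3, h1.2.1] at e2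
    exact e2
  obtain ⟨θ₂, h2, -⟩ := hh k j v hv z' hz' e1
  refine ⟨k, v, hv, θ₁, θ₂, h1, gtr_of hσ h2, ?_⟩
  have h3 : (fun u => θ₂ (θ₁ u)) =ᶠ[𝓝 z] θ := by
    have c1 : Tendsto θ₁ (𝓝 z) (𝓝 v) := by
      have := h1.1.continuousAt.tendsto
      rwa [h1.2.1] at this
    have c2 : Tendsto θ₂ (𝓝 v) (𝓝 z') := by
      have := h2.1.continuousAt.tendsto
      rwa [h2.2.1] at this
    have c3 : Tendsto θ (𝓝 z) (𝓝 z') := by
      have := h.1.continuousAt.tendsto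
      rwa [h.2.1] at this
    filter_upwards [h.2.2, h1.2.2, c1.eventually h2.2.2,
      (c2.comp c1).eventually (isOpen_ball.mem_nhds hz'), c3.eventually (isOpen_ball.mem_nhds hz')]
      with u a1 a2 a3 a4 a5
    have e2 : (quo (sub S K)).σ j (θ₂ (θ₁ u)) = (quo (sub S K)).σ j (θ u) := by
      rw [← a3]
      show σ (pj K ((sub S K).σ k (θ₁ u))) = pj K ((sub S K).σ j (θ u))
      rw [← a1, mul_smul, ← hσ, a2]
    exact ((quo (sub S K)).inj j _ a4 _ a5 1 (by rw [one_smul]; exact e2)).2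
  have h4 := H864.K.jac_comp h1.2.1 h2.1.differentiableAt h1.1.differentiableAt
  rw [← h4, H864.K.jac_congr h3]

variable (S K) in
/-- `γ` acts on `D` by the multiplication by `x` -/
def IsX (D : Fin (sub S K).N → Cm d → ℂ) (γ : Γ) (x : ℂ) : Prop :=
  ∀ i j, ∀ z ∈ ball (0 : Cm d) 3, ∀ z' ∈ ball (0 : Cm d) 3, ∀ θ, GTr K S γ i j z z' θ →
    x * D i z = D j z' * (H64.TK.jac θ z).det ^ 2

theorem IsX.mul {D : Fin (sub S K).N → Cm d → ℂ} {γ γ' : Γ} {x x' : ℂ} (h : IsX K S D γ x)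
    (h' : IsX K S D γ' x') : IsX K S D (γ' * γ) (x' * x) := by
  intro i j z hz z' hz' θ hθ
  obtain ⟨k, v, hv, θ₁, θ₂, h1, h2, h3⟩ := exists_gtr_comp hz hz' hθ
  have e1 := h i k z hz v hv θ₁ h1
  have e2 := h' k j v hv z' hz' θ₂ h2
  rw [h3, Matrix.det_mul, mul_pow, mul_assoc, e1, ← mul_assoc, e2]
  ring

theorem IsX.uniq {D : Fin (sub S K).N → Cm d → ℂ} {γ : Γ} {x x' : ℂ} (h : IsX K S D γ x)
    (h' : IsX K S D γ x') (hne : ∃ i, ∃ z ∈ ball (0 : Cm d) 3, D i z ≠ 0) : x = x' := by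
  obtain ⟨i, z, hz, h0⟩ := hne
  obtain ⟨j, z', hz', θ, hθ⟩ := exists_gtr S γ i hz
  exact mul_right_cancel₀ h0 ((h i j z hz z' hz' θ hθ).trans (h' i j z hz z' hz' θ hθ).symm)

variable {u : Fin (quo (sub S K)).N → Cm d → Matrix (Fin a) (Fin d) ℂ}
  {s : Fin (quo (sub S K)).N → Cm d → Matrix (Fin d) (Fin d) ℂ}

/-- the elements of `K` act trivially -/
theorem isX_one (hu : Hol1 (quo (sub S K)) u) (hs : Hol2 (quo (sub S K)) s) {γ : Γ}
    (hγ : γ ∈ K) : IsX K S (fun i z => dt (u i z) (s i z)) γ 1 := by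
  intro i j z hz z' hz' θ hθ
  have h1 : ∀ᶠ q in 𝓝 z, (quo (sub S K)).σ i q = (quo (sub S K)).σ j (θ q) := by
    filter_upwards [hθ.2.2] with q hq
    show pj K ((sub S K).σ i q) = pj K ((sub S K).σ j (θ q))
    rw [← hq]
    exact (pj_smul (⟨γ, hγ⟩ : K) _).symm
  have e1 := hu.change i j z hz z' hz' θ hθ.1 hθ.2.1 h1
  have e2 := hs.change i j z hz z' hz' θ hθ.1 hθ.2.1 h1
  have e3 := dt_pull (u j z') (s j z') (H64.TK.jac θ z)
  rw [← e1, ← e2] at e3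
  show 1 * dt (u i z) (s i z) = dt (u j z') (s j z') * (H64.TK.jac θ z).det ^ 2
  rw [one_mul]
  exact e3

/-- **the character** -/
theorem exists_x (had : a ≤ d) (h : GenU (quo (sub S K)) u s) (γ : Γ) :
    ∃ x : ℂ, x ^ K.index = 1 ∧ IsX K S (fun i z => dt (u i z) (s i z)) γ x := by
  obtain ⟨σ, hσ, hh⟩ := exists_tr K S γ
  obtain ⟨g, c, m, -, -, h1⟩ := exists_dt had hh h h.one h.form
  set x : ℂ := g.det ^ 2 * c ^ (d - a) with hx
  have h2 : IsX K S (fun i z => dt (u i z) (s i z)) γ x := fun i j z hz z' hz' θ hθ =>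
    h1 i j z hz z' hz' θ (hθ.htr hσ)
  refine ⟨x, ?_, h2⟩
  have h3 : ∀ n : ℕ, IsX K S (fun i z => dt (u i z) (s i z)) (γ ^ n) (x ^ n) := by
    intro n
    induction n with
    | zero =>
      rw [pow_zero, pow_zero]
      exact isX_one h.one h.form K.one_mem
    | succ n ih =>
      rw [pow_succ', pow_succ']
      exact ih.mul h2
  exact (h3 K.index).uniq (isX_one h.one h.form (K.pow_index_mem γ)) h.ne

/-- **invariance of the power** -/
theorem dt_inv (had : a ≤ d) (h : GenU (quo (sub S K)) u s) {γ : Γ} {i j : Fin (sub S K).N}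
    {z z' : Cm d} (hz : z ∈ ball (0 : Cm d) 3) (hz' : z' ∈ ball (0 : Cm d) 3) {θ : Cm d → Cm d}
    (h1 : AnalyticAt ℂ θ z) (h2 : θ z = z')
    (h3 : ∀ᶠ q in 𝓝 z, (sub S K).σ i q = γ • (sub S K).σ j (θ q)) :
    dt (u i z) (s i z) ^ K.index =
      dt (u j z') (s j z') ^ K.index * (H64.TK.jac θ z).det ^ (2 * K.index) := by
  obtain ⟨x, hx, hX⟩ := exists_x had h γ⁻¹
  have h4 := hX i j z hz z' hz' θ ⟨h1, h2, by
    filter_upwards [h3] with q hq
    rw [hq, inv_smul_smul]⟩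
  have h5 := congrArg (fun y : ℂ => y ^ K.index) h4
  simp only [mul_pow, hx, one_mul] at h5
  rw [h5, ← pow_mul]

end chr

end Vale.Agent.P281.H511.HKT
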