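import Vale.Agent.P281.H511.HKT.Norm
import Vale.Agent.P281.H511.HKT.Chr
import Vale.Agent.P281.H225.KC.Cov

/-!
# P281, project T-HKT (helper511), block FORM: the norm on open sets, change of the forms
-/

open Set Filter Metric MeasureTheory Vale.Agent.P281 Vale.Agent.P281.H713 Vale.Agent.P272.K
open scoped Topology ContDiff Manifold ComplexConjugate ENNReal

set_option linter.unusedSectionVars false

noncomputable section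

namespace Vale.Agent.P281.H511.HKT

open Vale.Agent.P281.H64.TK Vale.Agent.P281.H64.TK.TS Vale.Agent.P281.H603.K
open Vale.Agent.P281.H603.TE (sub fsub fW idx rep exists_rep ccs sub_sigma fsub_sigma')
open Vale.Agent.P281.H511.TS (HTr Hol lint_int enorm_pow_rpow)
open Vale.Agent.P281.H399.QT (Qs pj quo fquo pj_eq pj_smul)
open Vale.Agent.P281.H225 (lint_polyA_le)
open Vale.Agent.P281.H225.C (polyInA_sub)
open Vale.Agent.P281.H225.KC (lift_open)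
open Vale.Agent.P281.H511.HK (Dt dif_coord Dt_eq enorm_rpow)

attribute [local instance] ccs

variable {p d : ℕ} {Z Y : Type} [TopologicalSpace Z] [T2Space Z] [ChartedSpace (Cm (p + d)) Z]
  [IsManifold 𝓘(ℂ, Cm (p + d)) ω Z] [TopologicalSpace Y] [T2Space Y] [ChartedSpace (Cm p) Y]
  [IsManifold 𝓘(ℂ, Cm p) ω Y] {f : Z → Y}

/-- **the norm**, on open sets -/
theorem lint_etaO {L : LG (p := p) (d := d) f} {N : ℕ} {D : IX L → Cm p × Cm d → ℂ}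
    (hD : IsND L N D)
    (hf : ContMDiff 𝓘(ℂ, Cm (p + d)) 𝓘(ℂ, Cm p) ω f) (hN : 0 < N) {q : Cm d → Z}
    {O : Set (Cm d)} (hO : IsOpen O)
    (hq : ∀ v ∈ O, ContMDiffAt 𝓘(ℂ, Cm d) 𝓘(ℂ, Cm (p + d)) ω q v) (hinj : InjOn q O) {y : Y}
    (hqy : ∀ v ∈ O, f (q v) = y) (hy : y ∈ U L)
    {G : Fin (SK L hy).N → Cm d → ℝ} (hG : ∀ i, ContinuousOn (G i) (ball 0 3))
    (h0 : ∀ i z, 0 ≤ G i z)
    (hGD : ∀ i, ∀ z ∈ ball (0 : Cm d) 3,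
      ‖D i (L.χ y, z)‖ₑ ^ (2 / (N : ℝ)) ≤ ENNReal.ofReal (G i z)) :
    ∫⁻ u in O, ‖pull (Cm (p + d)) (eta L N D) q u‖ₑ ^ (2 / (N : ℝ)) ≤
      ENNReal.ofReal ((SK L hy).int fun i z => ((G i z : ℝ) : ℂ)).re := by
  obtain ⟨A, q', hAO, hAo, hnull, hqq, hpoly⟩ := lift_open L.model hy.1 (L.hT' hy.2) hO hq hinj hqy
  have hae : (O : Set (Cm d)) =ᵐ[volume] (A : Set (Cm d)) :=
    Filter.EventuallyLE.antisymm (ae_le_set.2 hnull) (Eventually.of_forall fun _ hx => hAO hx)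
  rw [setLIntegral_congr hae]
  rw [← lint_int (SK L hy) hG h0]
  refine lint_polyA_le hAo.measurableSet (polyInA_sub L.K hpoly) _ _ ?_
  intro i u hu z hz γ θ hθ hθz hev
  obtain ⟨r, hr, hball⟩ := Metric.isOpen_iff.1 hAo u hu
  have hfu : f (q u) = y := hqy u (hAO hu)
  have hpd : IsPolydisc (Cm (p + d)) f q u r :=
    ⟨fun v hv => hq v (hAO (hball hv)), hinj.mono (hball.trans hAO), fun v hv => by
      rw [hqy v (hAO (hball hv)), hfu]⟩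
  have h1 := pull_eta (L := L) hD hf hpd (by rw [hfu]; exact hy) (q' := q')
    (fun v hv => by rw [hfu]; exact hqq v (hball hv)) (mem_ball_self hr) hz (γ := (γ : L.Γ)) hθ hθz
    (by rw [hfu]; exact hev)
  rw [h1, hfu, enorm_rpow hN]
  gcongr
  exact hGD i z hz

/-- the translated sheets give the same coordinates -/
theorem IsCo.move {L : LG (p := p) (d := d) f} {x : Z}
    (hf : ContMDiff 𝓘(ℂ, Cm (p + d)) 𝓘(ℂ, Cm p) ω f) (hx : f x ∈ U L)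
    {i : IX L} {ζ : Z → Cm d} (h : IsCo L x i ζ) (γ : L.Γ) :
    ∃ (j : IX L) (κ : L.K), (∀ t z, (κ : L.Γ) • sg L j t z = γ • sg L i t z) ∧ IsCo L x j ζ := by
  obtain ⟨κ, c, hκ⟩ := exists_rep L.K (γ * rep L.K (idx L.K L.𝓕.N i).2)
  have h1 : ∀ t z, (κ : L.Γ) • sg L ((idx L.K L.𝓕.N).symm ((idx L.K L.𝓕.N i).1, c)) t z =
      γ • sg L i t z := by
    intro t z
    show (κ : L.Γ) • (fsub L.𝓕 L.K).σ ((idx L.K L.𝓕.N).symm ((idx L.K L.𝓕.N i).1, c)) t z =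
      γ • rep L.K (idx L.K L.𝓕.N i).2 • L.𝓕.σ (idx L.K L.𝓕.N i).1 t z
    rw [fsub_sigma', ← mul_smul, ← mul_smul, ← hκ]
  refine ⟨_, κ, h1, h.1, h.2.1, ?_⟩
  filter_upwards [h.2.2, eventually_mem L hf hx] with z a b
  rw [← q_smul L b (κ : L.Γ), h1, q_smul L b, a]

/-- **change of the forms** -/
theorem eta_change (hf : ContMDiff 𝓘(ℂ, Cm (p + d)) 𝓘(ℂ, Cm p) ω f)
    {L L' : LG (p := p) (d := d) f} {N : ℕ} {D : IX L → Cm p × Cm d → ℂ}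
    {D' : IX L' → Cm p × Cm d → ℂ} (hD : IsND L N D) (hD' : IsND L' N D') {y : Y}
    (hy : y ∈ U L) (hy' : y ∈ U L') {τ : L.E ≃ₜ L'.E}
    (hq : ∀ e, L'.q (L'.χ y) (τ e) = L.q (L.χ y) e) {σ : Qs L.K L.E ≃ₜ Qs L'.K L'.E}
    (hσ : ∀ e, σ (pj L.K e) = pj L'.K (τ e)) (hτ : Hol (quo (SK L hy)) (quo (SK L' hy')) σ) {C : ℂ}
    (hc : ∀ i j, ∀ z ∈ ball (0 : Cm d) 3, ∀ z' ∈ ball (0 : Cm d) 3, ∀ θ,
      HTr (quo (SK L hy)) (quo (SK L' hy')) σ i j z z' θ →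
        C * D i (L.χ y, z) = D' j (L'.χ y, z') * (H64.TK.jac θ z).det ^ N) {x : Z} (hx : f x = y)
    {ξ : Fin d → Cm (p + d)}
    (hξ : ∀ l, mfderiv 𝓘(ℂ, Cm (p + d)) 𝓘(ℂ, Cm p) f x (ξ l) = 0) :
    eta L' N D' x ξ = C * eta L N D x ξ := by
  subst hx
  obtain ⟨i, ζ, h⟩ := chart hf hy
  obtain ⟨j₀, ζ', h'⟩ := chart hf hy'
  have h1 : L'.q (L'.χ (f x)) (sg L' j₀ (L'.χ (f x)) (ζ' x)) =
      L'.q (L'.χ (f x)) (τ (sg L i (L.χ (f x)) (ζ x))) := by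
    rw [hq, h'.2.2.self_of_nhds, h.2.2.self_of_nhds]
  obtain ⟨γ, hγ⟩ := (L'.model.eq _ (L'.hT' hy'.2) _ _).1 h1
  obtain ⟨j, κ, hκ, h''⟩ := h'.move hf hy' γ
  have h2 : σ ((quo (SK L hy)).σ i (ζ x)) = (quo (SK L' hy')).σ j (ζ' x) := by
    show σ (pj L.K (sg L i (L.χ (f x)) (ζ x))) = pj L'.K (sg L' j (L'.χ (f x)) (ζ' x))
    rw [hσ, ← hγ, ← hκ]
    exact pj_smul κ _
  obtain ⟨θ, hθ, -⟩ := hτ i j (ζ x) h.2.1 (ζ' x) h'.2.1 h2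
  have h3 : ∀ᶠ u in 𝓝 (ζ x), par L (f x) i u = par L' (f x) j (θ u) := by
    filter_upwards [hθ.2.2] with u hu
    have a1 : σ (pj L.K (sg L i (L.χ (f x)) u)) = pj L'.K (sg L' j (L'.χ (f x)) (θ u)) := hu
    rw [hσ] at a1
    obtain ⟨κ', hκ'⟩ := pj_eq.1 a1
    have a2 : (κ' : L'.Γ) • sg L' j (L'.χ (f x)) (θ u) = τ (sg L i (L.χ (f x)) u) := hκ'
    show L.q _ _ = L'.q _ _
    rw [← hq, ← a2, q_smul L' hy']
  have h4 := Dt_cmp hf hy hy' h h'' hθ.1 hθ.2.1 h3 hξ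
  rw [eta_eq hD hf hy h hξ, eta_eq hD' hf hy' h'' hξ, h4, mul_pow, ← mul_assoc, ← mul_assoc,
    ← hc i j (ζ x) h.2.1 (ζ' x) h'.2.1 θ hθ]

end Vale.Agent.P281.H511.HKT
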