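import Vale.Agent.P281.H83.HKT.Spec
import Vale.Agent.P281.H485.K.Alg

/-!
# P281, project T-HKT (helper511), block FORM: the covolume of the periods
-/

open Set Filter Metric MeasureTheory Vale.Agent.P272.K
open scoped Topology ContDiff ComplexConjugate

noncomputable section

namespace Vale.Agent.P281.H511.HKT

open Vale.Agent.P281.H64 (Mark Qf Qf_eq)
open Vale.Agent.P281.H64.TK
open Vale.Agent.P281.H83.HKT (cov)
open Vale.Agent.P281.H485.K (real2 det_real2)

variable {a : ℕ}

/-- the real matrix of the columns of `C` -/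
def RC (C : Matrix (Fin a) (Fin a ⊕ Fin a) ℂ) : Matrix (Fin a ⊕ Fin a) (Fin a ⊕ Fin a) ℝ :=
  Matrix.of fun k l => Sum.elim (fun j => (C j l).re) (fun j => (C j l).im) k

theorem RC_mul (G : Matrix (Fin a) (Fin a) ℂ) (C : Matrix (Fin a) (Fin a ⊕ Fin a) ℂ) :
    RC (G * C) = real2 G * RC C := by
  ext k l
  rw [Matrix.mul_apply, Fintype.sum_sum_type]
  rcases k with k | k
  · show ((G * C) k l).re = ∑ x, (G k x).re * (C x l).re + ∑ x, -(G k x).im * (C x l).im
    rw [Matrix.mul_apply, Complex.re_sum, ← Finset.sum_add_distrib]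
    refine Finset.sum_congr rfl fun x _ => ?_
    rw [Complex.mul_re]
    ring
  · show ((G * C) k l).im = ∑ x, (G k x).im * (C x l).re + ∑ x, (G k x).re * (C x l).im
    rw [Matrix.mul_apply, Complex.im_sum, ← Finset.sum_add_distrib]
    refine Finset.sum_congr rfl fun x _ => ?_
    rw [Complex.mul_im]
    ring

/-- the standard symplectic matrix -/
def Js (a : ℕ) : Matrix (Fin a ⊕ Fin a) (Fin a ⊕ Fin a) ℝ := Matrix.fromBlocks 0 1 (-1) 0

theorem abs_det_Js : |(Js a).det| = 1 := by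
  have h1 : Js a * (Js a).transpose = 1 := by
    rw [Js, Matrix.fromBlocks_transpose, Matrix.fromBlocks_multiply]
    simp [← Matrix.fromBlocks_one]
  have h2 := congrArg Matrix.det h1
  rw [Matrix.det_mul, Matrix.det_transpose, Matrix.det_one] at h2
  rcases mul_self_eq_one_iff.1 h2 with h | h <;> rw [h] <;> simp

theorem RC_symp (C : Matrix (Fin a) (Fin a ⊕ Fin a) ℂ) (l l' : Fin a ⊕ Fin a) :
    ((RC C).transpose * Js a * RC C) l l' = (∑ j, conj (C j l) * C j l').im := by
  have h1 : Js a * RC C = Matrix.of fun k l => Sum.elim (fun j => (C j l).im)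
      (fun j => -(C j l).re) k := by
    ext k l
    rw [Matrix.mul_apply, Fintype.sum_sum_type]
    rcases k with k | k
    · simp [Js, RC, Matrix.one_apply]
    · simp [Js, RC, Matrix.one_apply]
  rw [Matrix.mul_assoc, h1, Matrix.mul_apply, Fintype.sum_sum_type, Complex.im_sum,
    ← Finset.sum_add_distrib]
  refine Finset.sum_congr rfl fun j _ => ?_
  show (C j l).re * (C j l').im + (C j l).im * -(C j l').re = (conj (C j l) * C j l').im
  rw [Complex.mul_im, Complex.conj_re, Complex.conj_im]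
  ring

/-- the matrix of a linear map of `ℂ^a` -/
def gm (G : EuclideanSpace ℂ (Fin a) →L[ℂ] EuclideanSpace ℂ (Fin a)) : Matrix (Fin a) (Fin a) ℂ :=
  Matrix.of fun j k => (G (WithLp.toLp 2 (Pi.single k 1)) : EuclideanSpace ℂ (Fin a)) j

theorem gm_apply (G : EuclideanSpace ℂ (Fin a) →L[ℂ] EuclideanSpace ℂ (Fin a)) (v : Fin a → ℂ)
    (j : Fin a) : (G (WithLp.toLp 2 v) : EuclideanSpace ℂ (Fin a)) j = ∑ k, gm G j k * v k := by
  have h1 : (WithLp.toLp 2 v : EuclideanSpace ℂ (Fin a)) =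
      ∑ k, v k • (WithLp.toLp 2 (Pi.single k (1 : ℂ)) : EuclideanSpace ℂ (Fin a)) := by
    apply (WithLp.equiv 2 (Fin a → ℂ)).injective
    funext k
    simp [Finset.sum_apply, Pi.single_apply]
  rw [h1, map_sum]
  simp only [map_smul]
  have h2 : ∀ g : Fin a → EuclideanSpace ℂ (Fin a), (∑ k, g k) j = ∑ k, (g k) j := by
    intro g
    simp [Finset.sum_apply]
  rw [h2]
  refine Finset.sum_congr rfl fun k _ => ?_
  show v k * _ = _
  rw [mul_comm]
  rfl

theorem det_gm (G : EuclideanSpace ℂ (Fin a) →L[ℂ] EuclideanSpace ℂ (Fin a)) :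
    (gm G).det = G.det := by
  have h1 := LinearMap.det_toMatrix (EuclideanSpace.basisFun (Fin a) ℂ).toBasis
    (G : EuclideanSpace ℂ (Fin a) →ₗ[ℂ] EuclideanSpace ℂ (Fin a))
  have h2 : LinearMap.toMatrix (EuclideanSpace.basisFun (Fin a) ℂ).toBasis
      (EuclideanSpace.basisFun (Fin a) ℂ).toBasis
      (G : EuclideanSpace ℂ (Fin a) →ₗ[ℂ] EuclideanSpace ℂ (Fin a)) = gm G := by
    ext j k
    rw [LinearMap.toMatrix_apply]
    simp [gm]
  rw [h2] at h1
  exact h1

/-- **the covolume and the polarization** -/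
theorem cov_det {K : Type} [Group K] (M : Mark K (a + a)) (c : K → Fin a → ℂ)
    (B : Matrix (Fin (a + a)) (Fin (a + a)) ℝ)
    {π : (Fin (a + a) → ℝ) ≃L[ℝ] EuclideanSpace ℂ (Fin a)} (hπ : ∀ x, π x = perMap M c x)
    (G : EuclideanSpace ℂ (Fin a) ≃L[ℂ] EuclideanSpace ℂ (Fin a))
    (hG : ∀ x x', (inner ℂ (G (π x)) (G (π x'))).im = Qf B x x') :
    cov M c ^ 2 * ‖(G : EuclideanSpace ℂ (Fin a) →L[ℂ] EuclideanSpace ℂ (Fin a)).det‖ ^ 4 =
      |(B⁻¹).det| := by
  set G' : EuclideanSpace ℂ (Fin a) →L[ℂ] EuclideanSpace ℂ (Fin a) :=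
    (G : EuclideanSpace ℂ (Fin a) →L[ℂ] EuclideanSpace ℂ (Fin a)) with hG'
  set C : Matrix (Fin a) (Fin a ⊕ Fin a) ℂ :=
    Matrix.of fun j l => c (M.g (finSumFinEquiv l)) j with hC
  have hcov : cov M c = |(RC C).det| := rfl
  have hπ1 : ∀ l, π (Pi.single (finSumFinEquiv l) 1) =
      WithLp.toLp 2 (fun j => C j l) := by
    intro l
    rw [hπ]
    show WithLp.toLp 2 _ = WithLp.toLp 2 _
    congr 1
    funext j
    rw [Finset.sum_eq_single (finSumFinEquiv l)]
    · simp [hC]
    · intro b _ hb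
      rw [Pi.single_eq_of_ne hb]
      simp
    · intro h
      exact absurd (Finset.mem_univ _) h
  have hGπ : ∀ l j, (G (π (Pi.single (finSumFinEquiv l) 1)) : EuclideanSpace ℂ (Fin a)) j =
      (gm G' * C) j l := by
    intro l j
    rw [hπ1, Matrix.mul_apply]
    exact gm_apply G' _ j
  have h1 : (RC (gm G' * C)).transpose * Js a * RC (gm G' * C) =
      ((B⁻¹).submatrix finSumFinEquiv finSumFinEquiv).transpose := by
    ext l l'
    rw [RC_symp]
    have h2 := hG (Pi.single (finSumFinEquiv l) 1) (Pi.single (finSumFinEquiv l') 1)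
    have h3 : inner ℂ (G (π (Pi.single (finSumFinEquiv l) 1)))
        (G (π (Pi.single (finSumFinEquiv l') 1))) =
        ∑ j, conj ((gm G' * C) j l) * (gm G' * C) j l' := by
      rw [PiLp.inner_apply]
      refine Finset.sum_congr rfl fun j _ => ?_
      rw [hGπ, hGπ, RCLike.inner_apply, mul_comm]
    rw [h3] at h2
    rw [h2, Qf_eq, Matrix.transpose_apply, Matrix.submatrix_apply]
    simp
  have h4 := congrArg Matrix.det h1
  rw [Matrix.det_mul, Matrix.det_mul, Matrix.det_transpose, Matrix.det_transpose,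
    Matrix.det_submatrix_equiv_self, RC_mul, Matrix.det_mul, det_real2, det_gm] at h4
  have h5 := congrArg abs h4
  rw [abs_mul, abs_mul, abs_det_Js, abs_mul] at h5
  rw [← h5, hcov, abs_of_nonneg (by positivity : (0 : ℝ) ≤ ‖G'.det‖ ^ 2)]
  ring

end Vale.Agent.P281.H511.HKT
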