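import Vale.Agent.P281.H511.HKT.Loc
import Vale.Agent.P281.H225.KC.Desc

/-!
# P281, project T-HKT (helper511): block FORM
-/

open Set Filter Metric MeasureTheory Vale.Agent.P281 Vale.Agent.P281.H713 Vale.Agent.P272.K
open scoped Topology ContDiff Manifold ComplexConjugate ENNReal

set_option linter.unusedSectionVars false

noncomputable section

namespace Vale.Agent.P281.H511.HKT

open Vale.Agent.P281.H64.TK Vale.Agent.P281.H64.TK.TS Vale.Agent.P281.H603.K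
open Vale.Agent.P281.H64 (IsProperFibration Mark Qf)
open Vale.Agent.P281.H603.TE (sub fsub fW idx rep exists_rep ccs sub_sigma fsub_sigma' core Cmp
  DLocE kah_fW compareE res)
open Vale.Agent.P281.H511.TS (HTr Hol)
open Vale.Agent.P281.H399.QT (Qs pj quo fquo pj_eq pj_smul qmap One1 cmp_quo kah_quo t2_quo ev_lift)
open Vale.Agent.P281.H83.HK Vale.Agent.P281.H83.HKT
open Vale.Agent.P281.H225.KC (NormO)

attribute [local instance] ccs

variable {p d a m N : ℕ} {Z Y : Type} [TopologicalSpace Z] [T2Space Z]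
  [ChartedSpace (Cm (p + d)) Z] [IsManifold 𝓘(ℂ, Cm (p + d)) ω Z] [TopologicalSpace Y] [T2Space Y]
  [ChartedSpace (Cm p) Y] [IsManifold 𝓘(ℂ, Cm p) ω Y] {f : Z → Y}
  {w : Chart (p + d) Z → Cm (p + d) → Matrix (Fin (p + d)) (Fin (p + d)) ℂ}
  {B₁ : Matrix (Fin (a + a)) (Fin (a + a)) ℝ} {k : ℕ} {B : Matrix (Fin k) (Fin k) ℝ}
  {v : Fin k → ℝ} {R : ℝ} {L : LocX (p := p) (d := d) f w a m N B₁ B v R}

/-- the covolume is positive -/
theorem cov_pos (hBas : BasTStmt) (hd : 0 < d) {t : Cm p} (ht : t ∈ L.T') :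
    0 < cov L.M (L.c t) :=
  (hBas d a L.E (core L.Γ m) (sub (L.𝓕.at t (L.hT' ht)) (core L.Γ m)) (fW (core L.Γ m) L.W t) L.M
    (L.F t) (L.c t) hd (kah_fW _ L.kfam (L.hT' ht)) (L.bas t ht)).2.2

/-- the period -/
theorem period (hBas : BasTStmt) (hPer : PerTStmt) (had : a + 2 ≤ d) {t : Cm p} (ht : t ∈ L.T') :
    IsK3Period B v (L.P t) := by
  have i1 : T2Space (Qs (core L.Γ m) L.E) :=
    t2_quo (sub (L.𝓕.at t (L.hT' ht)) (core L.Γ m))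
  have h1 := hPer a d (Qs (core L.Γ m) L.E) One1 (quo (sub (L.𝓕.at t (L.hT' ht)) (core L.Γ m)))
    (fW (core L.Γ m) L.W t) (dF (sub (L.𝓕.at t (L.hT' ht)) (core L.Γ m)) (L.F t))
    (cov L.M (L.c t)) (fun i z => L.s i (t, z)) k B (L.mt t ht) had
    (kah_quo (kah_fW _ L.kfam (L.hT' ht))) (L.gen t ht) (cov_pos hBas (by omega) ht)
  rw [L.kah t ht, ← L.per t ht] at h1
  exact h1.1

/-- the norms -/
theorem vol_eq (hBas : BasTStmt) (had : a + 2 ≤ d) {t : Cm p} (ht : t ∈ L.T') {G : ℝ}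
    (hG : cov L.M (L.c t) ^ 2 * G ^ 4 = |(B₁⁻¹).det|) :
    volT (quo (sub (L.𝓕.at t (L.hT' ht)) (core L.Γ m)))
        (dF (sub (L.𝓕.at t (L.hT' ht)) (core L.Γ m)) (L.F t))
        (fun i z => L.s i (t, z)) ^ (2 * N) * G ^ (2 * (2 * N)) =
      (|(B₁⁻¹).det| * R) ^ N * (bil B (L.P t) (star (L.P t))).re ^ ((d - a) * N) := by
  have h1 := L.nrm t ht
  have h2 := cov_pos (L := L) hBas (by omega) ht
  rw [div_pow, div_eq_iff (pow_ne_zero 2 h2.ne')] at h1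
  have e1 : (2 : ℕ) * (2 * N) = 4 * N := by ring
  rw [e1, pow_mul, pow_mul, ← mul_pow, h1, pow_mul _ (d - a) N, ← mul_pow, ← hG]
  congr 1
  ring

theorem volT_nonneg {d : ℕ} {E Γ : Type} [TopologicalSpace E] [Group Γ] [MulAction Γ E]
    (S : Sheets d E Γ) (u : Fin S.N → Cm d → Matrix (Fin a) (Fin d) ℂ)
    (s : Fin S.N → Cm d → Matrix (Fin d) (Fin d) ℂ) : 0 ≤ volT S u s := by
  unfold volT Sheets.int
  rw [Complex.re_sum]
  refine Finset.sum_nonneg fun i _ => ?_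
  rw [integral_complex_ofReal, Complex.ofReal_re]
  exact integral_nonneg fun z => norm_nonneg _

/-- some isomorphism -/
def D₀ (a : ℕ) : (Fin (a + a) → ℝ) ≃L[ℝ] EuclideanSpace ℂ (Fin a) :=
  ContinuousLinearEquiv.ofFinrankEq (by
    rw [finrank_real_of_complex]
    simp
    ring)

/-- the periods of the torus -/
def piL (L : LocX (p := p) (d := d) f w a m N B₁ B v R) (y : Y) :
    (Fin (a + a) → ℝ) ≃L[ℝ] EuclideanSpace ℂ (Fin a) := (dl L).π (D₀ a) y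

/-- **the norm** -/
theorem norm_fin (hF2 : F2Stmt) (hBas : BasTStmt) (had : a + 2 ≤ d) (hN : 0 < N)
    (hf : ContMDiff 𝓘(ℂ, Cm (p + d)) 𝓘(ℂ, Cm p) ω f) {q : Cm d → Z} {O : Set (Cm d)}
    (hO : IsOpen O) (hq : ∀ v ∈ O, ContMDiffAt 𝓘(ℂ, Cm d) 𝓘(ℂ, Cm (p + d)) ω q v)
    (hinj : InjOn q O) {y : Y} (hqy : ∀ v ∈ O, f (q v) = y) (hy : y ∈ U (lg L))
    {G : EuclideanSpace ℂ (Fin a) ≃L[ℂ] EuclideanSpace ℂ (Fin a)}
    (hG : ∀ x x', (inner ℂ (G (piL L y x)) (G (piL L y x'))).im = Qf B₁ x x') :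
    (∫⁻ u in O, ‖pull (Cm (p + d)) (eta (lg L) (2 * N) (dU L)) q u‖ₑ ^
        (2 / ((2 * N : ℕ) : ℝ))) ^ (2 * N) *
        ‖(G : EuclideanSpace ℂ (Fin a) →L[ℂ] EuclideanSpace ℂ (Fin a)).det‖ₑ ^ (2 * (2 * N)) ≤
      ENNReal.ofReal ((|(B₁⁻¹).det| * R) ^ N *
        periodNorm (fun _ : Fin 1 => B) (fun _ => (d - a) * N) (fun _ => L.P (L.χ y))) := by
  have h1 := norm_dU had hN hf hO hq hinj hqy hy
  have h2 : ∀ x, piL L y x = perMap L.M (L.c (L.χ y)) x :=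
    DLocE.π_spec (L := dl L) hF2 (by omega) (by omega) (D₀ a) hy
  have h3 := cov_det L.M (L.c (L.χ y)) B₁ h2 G hG
  have h4 := vol_eq (L := L) hBas had hy.2 h3
  have h5 := volT_nonneg (quo (sub (L.𝓕.at (L.χ y) (L.hT' hy.2)) (core L.Γ m)))
        (dF (sub (L.𝓕.at (L.χ y) (L.hT' hy.2)) (core L.Γ m)) (L.F (L.χ y)))
        (fun i z => L.s i (L.χ y, z))
  have h6 : periodNorm (fun _ : Fin 1 => B) (fun _ => (d - a) * N)
      (fun _ => L.P (L.χ y)) =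
      (bil B (L.P (L.χ y)) (star (L.P (L.χ y)))).re ^ ((d - a) * N) := by
    unfold periodNorm
    rw [Fin.prod_univ_one]
  rw [h6, ← h4, ENNReal.ofReal_mul (pow_nonneg h5 _), ENNReal.ofReal_pow h5,
    ENNReal.ofReal_pow (norm_nonneg _), ofReal_norm]
  gcongr

/-- **the change** -/
theorem change (I : Inputs) (hF : FormsStmt) (hFT : FormsTStmt) (hPos : PosTStmt)
    (hBil : BilTStmt) (hPull : PullTStmt) (hTwo : TwoTStmt) (hBas : BasTStmt) (hTh : ThCmpStmt)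
    (had : a + 2 ≤ d) (hf : ContMDiff 𝓘(ℂ, Cm (p + d)) 𝓘(ℂ, Cm p) ω f) (hw : IsKahler w)
    (L L' : LocX (p := p) (d := d) f w a m N B₁ B v R) {y : Y} (hy : y ∈ U (lg L))
    (hy' : y ∈ U (lg L')) :
    ∃ (G : EuclideanSpace ℂ (Fin a) ≃L[ℂ] EuclideanSpace ℂ (Fin a)) (c : ℂ),
      IsPeriodChange (Qf B₁) (piL L y) (piL L' y) G ∧
      IsK3Change B v (L.P (L.χ y)) (L'.P (L'.χ y)) c ∧
      ∀ x, f x = y → ∀ ξ : Fin d → Cm (p + d),
        (∀ l, mfderiv 𝓘(ℂ, Cm (p + d)) 𝓘(ℂ, Cm p) f x (ξ l) = 0) →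
        eta (lg L') (2 * N) (dU L') x ξ =
          (G : EuclideanSpace ℂ (Fin a) →L[ℂ] EuclideanSpace ℂ (Fin a)).det ^ (2 * N) *
            c ^ ((d - a) * N) * eta (lg L) (2 * N) (dU L) x ξ := by
  have hd : 0 < d := by omega
  have ht := L.hT' hy.2
  have ht' := L'.hT' hy'.2
  obtain ⟨τ, ρ, hq, -, hcs⟩ := compareE I hd hf hw L.model L'.model L.pull L'.pull ht ht'
    (by rw [L.χ.left_inv hy.1, L'.χ.left_inv hy'.1]) m
  have hK := kah_fW (core L.Γ m) L.kfam ht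
  have hK' := kah_fW (core L'.Γ m) L'.kfam ht'
  have hB : IsUnit B₁.det := ((dl L).F2_at I.f2 hd (by omega) hy.2).1
  have hπ := DLocE.π_spec (L := dl L) I.f2 hd (by omega) (D₀ a) hy
  have hπ' := DLocE.π_spec (L := dl L') I.f2 hd (by omega) (D₀ a) hy'
  obtain ⟨G, b, hG, hGF⟩ := hcs.change I hd hK hK' (L.form _ ht) (L'.form _ ht') hB
    (L.bas _ hy.2) (L'.bas _ hy'.2) hπ hπ'
  obtain ⟨σ, hσ, hHol, hmet⟩ := exists_qm' hcs
  have i1 : T2Space (Qs (core L.Γ m) L.E) := t2_quo (sub (L.𝓕.at (L.χ y) ht) (core L.Γ m))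
  have i2 : T2Space (Qs (core L'.Γ m) L'.E) := t2_quo (sub (L'.𝓕.at (L'.χ y) ht') (core L'.Γ m))
  have hgen := L.gen _ hy.2
  have hgen' := L'.gen _ hy'.2
  obtain ⟨g', c, M, hM, hcm⟩ := exists_mulU hHol hgen hgen'.one hgen'.form
  have hth := hTh d a L.E (core L.Γ m) (sub (L.𝓕.at (L.χ y) ht) (core L.Γ m)) L'.E (core L'.Γ m)
    (sub (L'.𝓕.at (L'.χ y) ht') (core L'.Γ m)) (fW (core L.Γ m) L.W (L.χ y))
    (fW (core L'.Γ m) L'.W (L'.χ y)) τ _ L.M L'.M (L.F (L.χ y)) (L.c (L.χ y)) (L'.F (L'.χ y))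
    (L'.c (L'.χ y)) σ had hK hK' hcs hσ (L.bas _ hy.2) (L'.bas _ hy'.2)
  have hK3 := k3_changeT hF hFT hPos hBil hPull hTwo had hHol (cov_pos hBas hd hy.2)
    (cov_pos hBas hd hy'.2) hth (L.mt _ hy.2) (L'.mt _ hy'.2) (kah_quo hK) (kah_quo hK')
    (L.kah _ hy.2) (L'.kah _ hy'.2) hmet hgen hgen' hM
    (fun i j z hz z' hz' θ hθ => (hcm i j z hz z' hz' θ hθ).2)
  rw [← L.per _ hy.2, ← L'.per _ hy'.2] at hK3
  refine ⟨G, c, hG, hK3, fun x hx ξ hξ => ?_⟩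
  refine eta_change (L := lg L) (L' := lg L') hf (isND_dU L had) (isND_dU L' had) hy hy' hq hσ hHol
    (fun i j z hz z' hz' θ hθ => ?_) hx hξ
  have e1 := pull_dF hσ (L.bas _ hy.2) (L'.bas _ hy'.2)
    (G := (G : EuclideanSpace ℂ (Fin a) →L[ℂ] EuclideanSpace ℂ (Fin a))) hGF hz hz' hθ
  have e2 := (hcm i j z hz z' hz' θ hθ).2
  have e3 := dt_pull (uL L' j (L'.χ y, z')) (L'.s j (L'.χ y, z')) (H64.TK.jac θ z)
  have e1' : uL L' j (L'.χ y, z') * H64.TK.jac θ z =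
      gm (G : EuclideanSpace ℂ (Fin a) →L[ℂ] EuclideanSpace ℂ (Fin a)) * uL L i (L.χ y, z) := e1
  have e2' : (H64.TK.jac θ z).transpose * L'.s j (L'.χ y, z') * H64.TK.jac θ z =
      c • L.s i (L.χ y, z) + uu M (uL L i (L.χ y, z)) := e2
  rw [e1', e2', dt_gc _ _ (by omega), det_gm] at e3
  show _ * dt (uL L i (L.χ y, z)) (L.s i (L.χ y, z)) ^ N =
    dt (uL L' j (L'.χ y, z')) (L'.s j (L'.χ y, z')) ^ N * _
  rw [pow_mul _ 2 N, pow_mul _ (d - a) N, pow_mul _ 2 N, ← mul_pow, ← mul_pow, ← mul_pow, e3]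

/-- **block FORM**, with the norm on open sets -/
theorem formTO (I : Inputs) (hF : FormsStmt) (hFT : FormsTStmt) (hPos : PosTStmt)
    (hBil : BilTStmt) (hPull : PullTStmt) (hTwo : TwoTStmt) (hBas : BasTStmt) (hTh : ThCmpStmt)
    (hPer : PerTStmt) (p d a m N : ℕ) (Z Y : Type) [TopologicalSpace Z] [T2Space Z]
    [ChartedSpace (Cm (p + d)) Z] [IsManifold 𝓘(ℂ, Cm (p + d)) ω Z] [TopologicalSpace Y]
    [T2Space Y] [ChartedSpace (Cm p) Y] [IsManifold 𝓘(ℂ, Cm p) ω Y] (f : Z → Y) (S : Set Y)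
    (w : Chart (p + d) Z → Cm (p + d) → Matrix (Fin (p + d)) (Fin (p + d)) ℂ)
    (B₁ : Matrix (Fin (a + a)) (Fin (a + a)) ℝ) (k : ℕ) (B : Matrix (Fin k) (Fin k) ℝ)
    (v : Fin k → ℝ) (R : ℝ) (hN : 0 < N) (had : a + 2 ≤ d)
    (hf : ContMDiff 𝓘(ℂ, Cm (p + d)) 𝓘(ℂ, Cm p) ω f) (hw : IsKahler w)
    (hL : ∀ y₀ ∉ S, ∃ L : LocX (p := p) (d := d) f w a m N B₁ B v R, y₀ ∈ L.χ.source ∧
      L.χ y₀ ∈ L.T' ∧ ∀ t ∈ L.T', L.χ.symm t ∉ S) :
    ∃ (ι : Type) (U : ι → Set Y)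
      (π : ι → Y → ((Fin (a + a) → ℝ) ≃L[ℝ] EuclideanSpace ℂ (Fin a)))
      (P : ι → Y → Fin 1 → Fin k → ℂ) (η : ι → Fin 1 → Z → (Fin d → Cm (p + d)) → ℂ),
      IsPeriodForms (Cm (p + d)) (Cm p) f S 0 (2 * N) (fun _ => 0) (Qf B₁) (2 * N) (fun _ => B)
        (fun _ => v) (fun _ => (d - a) * N) U π P η ∧
      NormO (E := Cm (p + d)) (E' := Cm p) f (2 * N) (Qf B₁) (2 * N) (fun _ => B)
        (fun _ => (d - a) * N) U π P η := by
  classical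
  have hd : 0 < d := by omega
  choose L hL1 hL2 hL3 using hL
  have hU : ∀ b : {y // y ∉ S}, b.1 ∈ U (lg (L b.1 b.2)) := fun b =>
    ⟨hL1 b.1 b.2, hL2 b.1 b.2⟩
  have hUS : ∀ (b : {y // y ∉ S}) (y : Y), y ∈ U (lg (L b.1 b.2)) → y ∉ S := by
    intro b y hy
    have h1 := hL3 b.1 b.2 _ hy.2
    rwa [(L b.1 b.2).χ.left_inv hy.1] at h1
  refine ⟨{y // y ∉ S}, fun b => U (lg (L b.1 b.2)), fun b => piL (L b.1 b.2),
    fun b y _ => (L b.1 b.2).P ((L b.1 b.2).χ y),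
    fun b _ => eta (lg (L b.1 b.2)) (2 * N) (dU (L b.1 b.2)), ?_, ?_⟩
  · exact {
      cover := fun y => ⟨fun hy => ⟨⟨y, hy⟩, hU ⟨y, hy⟩⟩, fun ⟨b, hb⟩ => hUS b y hb⟩
      isOpen := fun b => isOpen_U _
      hol := fun b x y hy => DLocE.hol_π (L := dl (L b.1 b.2)) I.f2 hd (by omega) (D₀ a) x hy
      polarized := fun b y hy => DLocE.polarized (L := dl (L b.1 b.2)) I.f2 hd (by omega) (D₀ a) hy
      period := fun b y hy j => ⟨period hBas hPer had hy.2, fun i => by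
        have h1 : ContDiffAt ℂ ω (fun t => (L b.1 b.2).P t i) ((L b.1 b.2).χ y) :=
          ((L b.1 b.2).holP i _ hy.2).contDiffAt
        exact ContMDiffAt.comp y (g := fun t => (L b.1 b.2).P t i) (f := (L b.1 b.2).χ)
          h1.contMDiffAt (contMDiffAt_χ (lg (L b.1 b.2)) hy)⟩
      chart := fun x hx => by
        obtain ⟨i, ζ, h⟩ := H511.HKT.chart (L := lg (L (f x) hx)) hf (hU ⟨f x, hx⟩)
        exact ⟨fun k z => ζ z k, fibreChart hf (hU ⟨f x, hx⟩) h⟩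
      forms := fun b x hx => forms (isND_dU _ had) hf hx
      rank := fun b y hy => rank (isND_dU _ had) hf hy (by
        obtain ⟨i, z, hz, h0⟩ := (gen (L b.1 b.2) hy.2).ne
        exact ⟨i, z, hz, pow_ne_zero N h0⟩)
      change := fun b b' y hy => by
        obtain ⟨G, c, h1, h2, h3⟩ := change I hF hFT hPos hBil hPull hTwo hBas hTh had hf hw
          (L b.1 b.2) (L b'.1 b'.2) hy.1 hy.2
        refine ⟨G, Equiv.refl _, fun _ => c, Equiv.refl _, h1, fun j => ⟨rfl, rfl, rfl, h2⟩,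
          fun x hx _ i ξ hξ => ?_⟩
        rw [Fin.prod_univ_one]
        exact h3 x hx ξ hξ
      norm := by
        refine ⟨(|(B₁⁻¹).det| * R) ^ N, fun b i q v₀ r hq hy _ G hG => ?_⟩
        exact norm_fin I.f2 hBas had hN hf isOpen_ball hq.1 hq.2.1 hq.2.2 hy hG }
  · refine ⟨(|(B₁⁻¹).det| * R) ^ N, fun b i q O y hO hq hinj hqy hy G hG => ?_⟩
    exact norm_fin I.f2 hBas had hN hf hO hq hinj hqy hy hG

/-- **block FORM** -/
theorem formT (I : Inputs) (hF : FormsStmt) (hFT : FormsTStmt) (hPos : PosTStmt)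
    (hBil : BilTStmt) (hPull : PullTStmt) (hTwo : TwoTStmt) (hBas : BasTStmt) (hTh : ThCmpStmt)
    (hPer : PerTStmt) : FormTStmt := by
  intro p d a m N Z Y _ _ _ _ _ _ _ _ f S w B₁ k B v R hN had hR hf hP hw hL
  obtain ⟨ι, U, π, P, η, h1, -⟩ := formTO I hF hFT hPos hBil hPull hTwo hBas hTh hPer p d a m N Z Y
    f S w B₁ k B v R hN had hf hw hL
  exact ⟨ι, U, π, P, η, h1⟩

end Vale.Agent.P281.H511.HKT
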