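import Vale.Agent.P281.H511.HKT.Pb
import Vale.Agent.P281.H511.HK.Cls
import Vale.Agent.P281.H747.TS.Mk
import Vale.Agent.P281.H83.HKT.Spec

/-!
# P281, project T-HKT (helper511), block FORM: change of the periods
-/

open Set Filter Metric MeasureTheory Vale.Agent.P281 Vale.Agent.P281.H713 Vale.Agent.P272.K
open scoped Topology ContDiff Manifold ComplexConjugate ComplexOrder ENNReal

set_option linter.unusedSectionVars false

noncomputable section

namespace Vale.Agent.P281.H511.HKT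

open Vale.Agent.P281.H64.TK Vale.Agent.P281.H64.TK.TS
open Vale.Agent.P281.H511.TS (HTr Hol HTr.tr dif_of_hol)
open Vale.Agent.P281.H747.TS (cl2_sum cl_lin cl2_add_smul cl2_smul cl2_congr cl_add_smul cl_congr
  l2_ext cl2_add cl_smul cl_add)
open Vale.Agent.P281.H83.HK Vale.Agent.P281.H83.HKT
open Vale.Agent.P281.H399.HK (tf_app tf_pm kf_pull pm)
open Vale.Agent.P281.H511.HK (tr_hTr tf_smul pull_kw exact_zero)

section cls
variable {a d : ℕ} {E Γ : Type} [TopologicalSpace E] [Group Γ] [MulAction Γ E] {S : Sheets d E Γ}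
  {u : Fin S.N → Cm d → Matrix (Fin a) (Fin d) ℂ} {κ : ℝ} {c : Fin S.N → Cm d → L2 d} {m : ℕ}
  {B : Matrix (Fin m) (Fin m) ℝ} (T : MarkT S u κ c B)

theorem cls_add {α β : Fin S.N → Cm d → L2 d} (hα : Cl2 S α) (hβ : Cl2 S β) :
    T.cls (fun i z => α i z + β i z) = T.cls α + T.cls β := by
  show (T.J.map (Int.cast : ℤ → ℂ)).mulVec (T.M.cl _) = _
  rw [cl_add T.M hα hβ, Matrix.mulVec_add]
  rfl

theorem cls_smul {α : Fin S.N → Cm d → L2 d} (hα : Cl2 S α) (x : ℂ) :
    T.cls (fun i z => x • α i z) = x • T.cls α := by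
  show (T.J.map (Int.cast : ℤ → ℂ)).mulVec (T.M.cl _) = _
  rw [cl_smul T.M hα x, Matrix.mulVec_smul]
  rfl

theorem cls_congr {α β : Fin S.N → Cm d → L2 d} (hα : Cl2 S α)
    (e : ∀ i, ∀ z ∈ ball (0 : Cm d) 3, α i z = β i z) : T.cls α = T.cls β := by
  show (T.J.map (Int.cast : ℤ → ℂ)).mulVec (T.M.cl _) = _
  rw [cl_congr T.M hα e]
  rfl

/-- all the vectors are classes -/
theorem cls_surj (y : Fin m → ℂ) : ∃ β, Cl2 S β ∧ T.cls β = y := by
  set x : Fin T.n → ℂ := (T.J'.map (Int.cast : ℤ → ℂ)).mulVec y with hx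
  refine ⟨fun i z => ∑ k, x k • T.M.b k i z, cl2_sum Finset.univ x fun k _ => T.M.closed k, ?_⟩
  show (T.J.map (Int.cast : ℤ → ℂ)).mulVec (T.M.cl _) = y
  rw [cl_lin T.M x, hx, Matrix.mulVec_mulVec]
  have h1 : T.J.map (Int.cast : ℤ → ℂ) * T.J'.map (Int.cast : ℤ → ℂ) = 1 := by
    have h2 : (T.J * T.J').map (Int.castRingHom ℂ) =
      T.J.map (Int.castRingHom ℂ) * T.J'.map (Int.castRingHom ℂ) := Matrix.map_mul
    rw [T.inv] at h2
    rw [Matrix.map_one _ (map_zero _) (map_one _)] at h2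
    exact h2.symm
  rw [h1, Matrix.one_mulVec]

/-- nondegeneracy -/
theorem bil_zero {m : ℕ} {B : Matrix (Fin m) (Fin m) ℝ} (hB : IsUnit B.det) {x : Fin m → ℂ}
    (h : ∀ y, bil B x y = 0) : x = 0 := by
  have h1 : (B.map (Complex.ofReal)).transpose.mulVec x = 0 := by
    funext j
    have h2 := h (Pi.single j 1)
    unfold bil at h2
    rw [Finset.sum_comm] at h2
    rw [Finset.sum_eq_single j] at h2
    · simp only [Pi.single_eq_same, mul_one] at h2
      rw [Pi.zero_apply, ← h2]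
      rfl
    · intro b _ hb
      refine Finset.sum_eq_zero fun i _ => ?_
      rw [Pi.single_eq_of_ne hb, mul_zero]
    · intro h3
      exact absurd (Finset.mem_univ _) h3
  have h3 : IsUnit (B.map (Complex.ofReal)).transpose.det := by
    rw [Matrix.det_transpose]
    have h4 : (B.map (Complex.ofReal)).det = ((B.det : ℝ) : ℂ) :=
      (Complex.ofRealHom.map_det B).symm
    rw [h4]
    exact hB.map Complex.ofRealHom
  exact Matrix.eq_zero_of_mulVec_eq_zero h3.ne_zero h1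

end cls

section uu
variable {a d : ℕ} {E Γ : Type} [TopologicalSpace E] [T2Space E] [Group Γ] [Subsingleton Γ]
  [MulAction Γ E] [ContinuousConstSMul Γ E] {S : Sheets d E Γ}
  {u : Fin S.N → Cm d → Matrix (Fin a) (Fin d) ℂ} {κ : ℝ}
  {w : Fin S.N → Cm d → Matrix (Fin d) (Fin d) ℂ} {m : ℕ} {B : Matrix (Fin m) (Fin m) ℝ}

/-- **the classes of the `u_j ∧ u_k` are in the radical** -/
theorem cls_uu (hF : FormsStmt) (hFT : FormsTStmt) (hPos : PosTStmt) (hBil : BilTStmt)
    (had : a + 2 ≤ d) (hw : Kah S w) {s : Fin S.N → Cm d → Matrix (Fin d) (Fin d) ℂ}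
    (h : GenU S u s) (T : MarkT S u κ (kw w) B) {M : Matrix (Fin a) (Fin a) ℂ}
    (hM : M.transpose = -M) : T.cls (ts fun i z => uu M (u i z)) = 0 := by
  obtain ⟨f1, f2, -⟩ := hF d E Γ S (by omega)
  have h1 := f1 _ ((hFT a d E Γ S u (by omega) h.one).2 M hM)
  refine bil_zero T.unit fun y => ?_
  obtain ⟨β, hβ, rfl⟩ := cls_surj T y
  rw [hBil a d E Γ S u κ (kw w) m B T _ β had h.one (f2 w hw).1 (f2 w hw).2 h1 hβ,
    (hPos a d E Γ S w u s had hw h).2.2.2.2 M β hM hβ, zero_div]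

end uu

section change
variable {a d : ℕ} {E Γ : Type} [TopologicalSpace E] [T2Space E] [Group Γ] [Subsingleton Γ]
  [MulAction Γ E] [ContinuousConstSMul Γ E] {S : Sheets d E Γ}
  {E' Γ' : Type} [TopologicalSpace E'] [T2Space E'] [Group Γ'] [Subsingleton Γ']
  [MulAction Γ' E'] [ContinuousConstSMul Γ' E'] {S' : Sheets d E' Γ'}

theorem tf_add (x y : Matrix (Fin d) (Fin d) ℂ) : tf (x + y) = tf x + tf y := by
  refine ContinuousLinearMap.ext fun u => ContinuousLinearMap.ext fun v => ?_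
  show tf (x + y) u v = tf x u v + tf y u v
  rw [tf_app, tf_app, tf_app, ← Finset.sum_add_distrib]
  refine Finset.sum_congr rfl fun j _ => ?_
  rw [← Finset.sum_add_distrib]
  refine Finset.sum_congr rfl fun k _ => ?_
  rw [Matrix.add_apply]
  ring

theorem pull_ts' {τ : E → E'} (hτ : Hol S S' τ) {s : Fin S.N → Cm d → Matrix (Fin d) (Fin d) ℂ}
    {s' : Fin S'.N → Cm d → Matrix (Fin d) (Fin d) ℂ}
    (h : ∀ i j, ∀ z ∈ ball (0 : Cm d) 3, ∀ z' ∈ ball (0 : Cm d) 3, ∀ θ,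
      HTr S S' τ i j z z' θ →
        (H64.TK.jac θ z).transpose * s' j z' * H64.TK.jac θ z = s i z) :
    Pull2 S S' τ (ts s) (ts s') := by
  intro i j z hz z' hz' ψ hψ u v
  obtain ⟨θ, h1, h2⟩ := tr_hTr hτ hz hz' hψ
  have h3 : ts s i z = tf (pm (H64.TK.jac θ z) (s' j z')) := by
    rw [pm, h i j z hz z' hz' θ h1]
    rfl
  show (ts s i z) u v = tf (s' j z') _ _
  rw [h3, tf_pm, h2, h2]

/-- the relation of a manifold with itself -/
theorem thRel_refl (u : Fin S.N → Cm d → Matrix (Fin a) (Fin d) ℂ) (κ : ℝ) :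
    ThRel S u κ S u κ id := by
  intro x x' _ _ hp
  have h1 : tT S u x = tT S u x' := by
    unfold tT Sheets.int
    refine Finset.sum_congr rfl fun i _ => ?_
    refine MeasureTheory.setIntegral_congr_fun (H840.TS.meas_P S i) fun z hz => ?_
    have hz3 : z ∈ ball (0 : Cm d) 3 := by
      rw [mem_ball_zero_iff]
      exact lt_trans hz.1 (by norm_num)
    have h2 : ∀ l, x l i z = x' l i z := by
      intro l
      refine l2_ext fun v v' => ?_
      have h3 := hp l i i z hz3 z hz3 id ⟨contDiffAt_id, rfl, Eventually.of_forall fun _ => rfl⟩ v v'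
      rw [fderiv_id] at h3
      exact h3
    show W (thl (u i z) fun l => x l i z) = W (thl (u i z) fun l => x' l i z)
    have h4 : (fun l => x l i z) = fun l => x' l i z := funext h2
    rw [h4]
  rw [h1]

/-- **the change of the periods** -/
theorem k3_changeT (hF : FormsStmt) (hFT : FormsTStmt) (hPos : PosTStmt) (hBil : BilTStmt)
    (hPull : PullTStmt) (hTwo : TwoTStmt) (had : a + 2 ≤ d) {τ : E ≃ₜ E'} (hτ : Hol S S' τ)
    {u : Fin S.N → Cm d → Matrix (Fin a) (Fin d) ℂ}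
    {u' : Fin S'.N → Cm d → Matrix (Fin a) (Fin d) ℂ} {κ κ' : ℝ} (hκ : 0 < κ) (hκ' : 0 < κ')
    (hth : ThRel S u κ S' u' κ' τ) {k : ℕ} {B : Matrix (Fin k) (Fin k) ℝ}
    {w : Fin S.N → Cm d → Matrix (Fin d) (Fin d) ℂ}
    {w' : Fin S'.N → Cm d → Matrix (Fin d) (Fin d) ℂ}
    (T : MarkT S u κ (kw w) B) (T' : MarkT S' u' κ' (kw w') B) {v : Fin k → ℝ}
    (hw : Kah S w) (hw' : Kah S' w') (hv : T.clr (kw w) = v) (hv' : T'.clr (kw w') = v)
    (hm : ∀ i j, ∀ z ∈ ball (0 : Cm d) 3, ∀ z' ∈ ball (0 : Cm d) 3, ∀ θ,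
      HTr S S' τ i j z z' θ →
        w i z = (H64.TK.jac θ z).transpose * w' j z' * (H64.TK.jac θ z).map conj)
    {s : Fin S.N → Cm d → Matrix (Fin d) (Fin d) ℂ}
    {s' : Fin S'.N → Cm d → Matrix (Fin d) (Fin d) ℂ} (hs : GenU S u s) (hs' : GenU S' u' s')
    {c : ℂ} {M : Matrix (Fin a) (Fin a) ℂ} (hM : M.transpose = -M)
    (hc : ∀ i j, ∀ z ∈ ball (0 : Cm d) 3, ∀ z' ∈ ball (0 : Cm d) 3, ∀ θ,
      HTr S S' τ i j z z' θ →
        (H64.TK.jac θ z).transpose * s' j z' * H64.TK.jac θ z = c • s i z + uu M (u i z)) :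
    IsK3Change B v (T.cls (ts s)) (T'.cls (ts s')) c := by
  have hd0 : 0 < d := by omega
  obtain ⟨f1, f2, -⟩ := hF d E Γ S hd0
  obtain ⟨f1', f2', -⟩ := hF d E' Γ' S' hd0
  have hκk := (f2 w hw).1
  have hκk' := (f2' w' hw').1
  have hp := pull_kw hτ hm
  have hz : Exact S (fun i z => kw w i z - kw w i z) := by
    have e : (fun (i : Fin S.N) (z : Cm d) => kw w i z - kw w i z) = fun _ _ => (0 : L2 d) := by
      funext i z
      exact sub_self (kw w i z)
    rw [e]
    exact exact_zero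
  obtain ⟨T₁, h1, h2⟩ := hPull a d E Γ S E' Γ' S' τ w w' u u' κ κ' k B T' (kw w) had
    (dif_of_hol hτ) hw hw' hs.one hs'.one hκ hκ' hth hκk hp hz
  obtain ⟨A, hA1, hA2, hA3⟩ := hTwo a d E Γ S u u κ κ (kw w) k B B T T₁ had hs.one hs.one hκ hκ
    (thRel_refl u κ) hκk (f2 w hw).2
  refine ⟨A, hA1, ?_, hA3, ?_⟩
  · funext l
    have e1 : v l = (T₁.cls (kw w) l).re := by
      rw [← hv', ← h1]
      rfl
    rw [e1, hA2 _ hκk]
    simp only [Matrix.mulVec, dotProduct, Matrix.map_apply, Complex.re_sum]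
    refine Finset.sum_congr rfl fun j _ => ?_
    rw [← hv]
    simp [MarkT.clr]
  · have hcs := f1 _ hs.form
    have huu := f1 _ ((hFT a d E Γ S u hd0 hs.one).2 M hM)
    have e1 : Cl2 S (ts fun i z => c • s i z + uu M (u i z)) :=
      cl2_congr (cl2_add (cl2_smul hcs c) huu) fun i z _ => by
        show c • tf (s i z) + tf (uu M (u i z)) = tf (c • s i z + uu M (u i z))
        rw [tf_add, tf_smul]
    have e2 : T₁.cls (ts fun i z => c • s i z + uu M (u i z)) = T'.cls (ts s') :=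
      h2 _ _ e1 (f1' _ hs'.form) (pull_ts' hτ hc)
    have e3 : T.cls (ts fun i z => c • s i z + uu M (u i z)) = c • T.cls (ts s) := by
      rw [cls_congr T e1 (β := fun i z => c • ts s i z + ts (fun i z => uu M (u i z)) i z)
        fun i z _ => by
          show tf (c • s i z + uu M (u i z)) = c • tf (s i z) + tf (uu M (u i z))
          rw [tf_add, tf_smul],
        cls_add T (cl2_smul hcs c) huu, cls_smul T hcs,
        cls_uu hF hFT hPos hBil had hw hs T hM, add_zero]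
    rw [← e2, hA2 _ e1, e3, Matrix.mulVec_smul]

end change

end Vale.Agent.P281.H511.HKT
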