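import Vale.Agent.P281.H511.HKT.Chg
import Vale.Agent.P281.H511.HKT.Per
import Vale.Agent.P281.H511.HKT.Cov
import Vale.Agent.P281.H603.TE.AlbA

/-!
# P281, project T-HKT (helper511), block FORM: the local data
-/

open Set Filter Metric MeasureTheory Vale.Agent.P281 Vale.Agent.P281.H713 Vale.Agent.P272.K
open scoped Topology ContDiff Manifold ComplexConjugate ENNReal

set_option linter.unusedSectionVars false

noncomputable section

namespace Vale.Agent.P281.H511.HKT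

open Vale.Agent.P281.H64.TK Vale.Agent.P281.H64.TK.TS Vale.Agent.P281.H603.K
open Vale.Agent.P281.H64 (IsProperFibration Mark Qf)
open Vale.Agent.P281.H603.TE (sub fsub fW idx rep exists_rep ccs sub_sigma fsub_sigma' core Cmp
  DLocE kah_fW compareE res)
open Vale.Agent.P281.H511.TS (HTr Hol)
open Vale.Agent.P281.H399.QT (Qs pj quo fquo pj_eq pj_smul qmap One1 cmp_quo kah_quo t2_quo ev_lift)
open Vale.Agent.P281.H399.HK (dd_comp)
open Vale.Agent.P281.H83.HK Vale.Agent.P281.H83.HKT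

attribute [local instance] ccs

/-- derivatives in the second variable -/
theorem analyticAt_dd2 {p d : ℕ} {g : Cm p × Cm d → ℂ} {x : Cm p × Cm d} (h : AnalyticAt ℂ g x)
    (k : Fin d) : AnalyticAt ℂ (fun q : Cm p × Cm d => dd k (fun z => g (q.1, z)) q.2) x := by
  have h1 : (fun q : Cm p × Cm d => fderiv ℂ g q (0, Pi.single k 1)) =ᶠ[𝓝 x]
      fun q => dd k (fun z => g (q.1, z)) q.2 := by
    filter_upwards [h.eventually_analyticAt] with q hq
    have h2 : HasFDerivAt (fun z : Cm d => (q.1, z))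
        (ContinuousLinearMap.inr ℂ (Cm p) (Cm d)) q.2 := hasFDerivAt_prodMk_right _ _
    have h3 : HasFDerivAt g (fderiv ℂ g q) ((fun z : Cm d => (q.1, z)) q.2) :=
      hq.differentiableAt.hasFDerivAt
    have h4 : HasFDerivAt (fun z => g (q.1, z)) ((fderiv ℂ g q).comp
        (ContinuousLinearMap.inr ℂ (Cm p) (Cm d))) q.2 := h3.comp q.2 h2
    show _ = fderiv ℂ (fun z => g (q.1, z)) q.2 (Pi.single k 1)
    rw [h4.fderiv]
    rfl
  refine AnalyticAt.congr ?_ h1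
  have h5 : AnalyticAt ℂ (fderiv ℂ g) x := h.fderiv
  exact ((ContinuousLinearMap.apply ℂ ℂ ((0, Pi.single k (1 : ℂ)) : Cm p × Cm d)).analyticAt _).comp
    h5

section quo
variable {d : ℕ} {E Γ : Type} [TopologicalSpace E] [Group Γ] [MulAction Γ E]
  [ContinuousConstSMul Γ E] {E' Γ' : Type} [TopologicalSpace E'] [Group Γ'] [MulAction Γ' E']
  [ContinuousConstSMul Γ' E'] {S : Sheets d E Γ} {S' : Sheets d E' Γ'}
  {w : Fin S.N → Cm d → Matrix (Fin d) (Fin d) ℂ}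
  {w' : Fin S'.N → Cm d → Matrix (Fin d) (Fin d) ℂ}

/-- the map of the quotients, with the metrics -/
theorem exists_qm' {τ : E ≃ₜ E'} {ρ : Γ ≃* Γ'} (H : Cmp S w S' w' τ ρ) :
    ∃ σ : Qs Γ E ≃ₜ Qs Γ' E', (∀ e, σ (pj Γ e) = pj Γ' (τ e)) ∧ Hol (quo S) (quo S') σ ∧
      ∀ i j, ∀ z ∈ ball (0 : Cm d) 3, ∀ z' ∈ ball (0 : Cm d) 3, ∀ θ,
        HTr (quo S) (quo S') σ i j z z' θ →
          w i z = (H64.TK.jac θ z).transpose * w' j z' * (H64.TK.jac θ z).map conj := by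
  refine ⟨qmap τ ρ H.eqv, fun e => rfl, fun i j z hz z' hz' he => ?_,
    fun i j z hz z' hz' θ hθ => ?_⟩
  · have he' : (quo S).σ i z = (1 : One1) • (qmap τ ρ H.eqv).symm ((quo S').σ j z') := by
      rw [one_smul, ← he, Homeomorph.symm_apply_apply]
    obtain ⟨θ, h1, h2, h3, h4⟩ := (cmp_quo H).hol i j z hz z' hz' 1 he'
    refine ⟨θ, ⟨h1, h2, ?_⟩, h3⟩
    filter_upwards [h4] with u hu
    have hu' : (quo S).σ i u = (1 : One1) • (qmap τ ρ H.eqv).symm ((quo S').σ j (θ u)) := hu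
    rw [hu', one_smul, Homeomorph.apply_symm_apply]
  · refine (cmp_quo H).met i j z hz z' hz' 1 θ hθ.1 hθ.2.1 ?_
    filter_upwards [hθ.2.2] with u hu
    show (quo S).σ i u = (1 : One1) • (qmap τ ρ H.eqv).symm ((quo S').σ j (θ u))
    rw [← hu, one_smul, Homeomorph.symm_apply_apply]

/-- the group element -/
theorem exists_el {τ : E ≃ₜ E'} {σ : Qs Γ E ≃ₜ Qs Γ' E'} (hσ : ∀ e, σ (pj Γ e) = pj Γ' (τ e))
    {i : Fin S.N} {j : Fin S'.N} {z z' : Cm d} (hz : z ∈ ball (0 : Cm d) 3)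
    (hz' : z' ∈ ball (0 : Cm d) 3) {θ : Cm d → Cm d}
    (h : HTr (quo S) (quo S') σ i j z z' θ) :
    ∃ κ : Γ', ∀ᶠ u in 𝓝 z, τ (S.σ i u) = κ • S'.σ j (θ u) := by
  have hc : ContinuousAt (fun u => τ (S.σ i u)) z := by
    have h1 : ContinuousAt (S.σ i) z := (S.map_nhds i z hz).le
    exact τ.continuous.continuousAt.comp h1
  refine ev_lift S' hc hz' h.1.continuousAt h.2.1 ?_
  filter_upwards [h.2.2] with u hu
  rw [← hσ]
  exact hu

/-- **pull-back of the differentials of a basis** -/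
theorem pull_dF {a : ℕ} {τ : E ≃ₜ E'} {σ : Qs Γ E ≃ₜ Qs Γ' E'}
    (hσ : ∀ e, σ (pj Γ e) = pj Γ' (τ e)) {F : E → Fin a → ℂ} {c : Γ → Fin a → ℂ}
    {F' : E' → Fin a → ℂ} {c' : Γ' → Fin a → ℂ} (hF : IsBas S F c) (hF' : IsBas S' F' c')
    {G : EuclideanSpace ℂ (Fin a) →L[ℂ] EuclideanSpace ℂ (Fin a)} {b : EuclideanSpace ℂ (Fin a)}
    (hG : ∀ e, (WithLp.toLp 2 (F' (τ e)) : EuclideanSpace ℂ (Fin a)) =
      G (WithLp.toLp 2 (F e)) + b)
    {i : Fin S.N} {j : Fin S'.N} {z z' : Cm d} (hz : z ∈ ball (0 : Cm d) 3)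
    (hz' : z' ∈ ball (0 : Cm d) 3) {θ : Cm d → Cm d}
    (h : HTr (quo S) (quo S') σ i j z z' θ) :
    dF S' F' j z' * H64.TK.jac θ z = gm G * dF S F i z := by
  obtain ⟨κ, hκ⟩ := exists_el hσ hz hz' h
  ext l k
  have hd : ∀ x, DifferentiableAt ℂ (fun q => F (S.σ i q) x) z := fun x =>
    ((hF.add x).hol i).differentiableAt (isOpen_ball.mem_nhds hz)
  have hd' : DifferentiableAt ℂ (fun q => F' (S'.σ j q) l) z' :=
    ((hF'.add l).hol j).differentiableAt (isOpen_ball.mem_nhds hz')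
  have h1 : (fun q => F' (S'.σ j (θ q)) l + c' κ l) =ᶠ[𝓝 z]
      fun q => ∑ x, gm G l x * F (S.σ i q) x + b l := by
    filter_upwards [hκ] with q hq
    have e1 : F' (κ • S'.σ j (θ q)) l = F' (S'.σ j (θ q)) l + c' κ l := (hF'.add l).add κ _
    rw [← e1, ← hq]
    have e2 := congrArg (fun v : EuclideanSpace ℂ (Fin a) => v l) (hG (S.σ i q))
    have e3 : (G (WithLp.toLp 2 (F (S.σ i q))) + b : EuclideanSpace ℂ (Fin a)) l =
      (G (WithLp.toLp 2 (F (S.σ i q))) : EuclideanSpace ℂ (Fin a)) l + b l := rfl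
    have e4 : F' (τ (S.σ i q)) l =
        (G (WithLp.toLp 2 (F (S.σ i q))) : EuclideanSpace ℂ (Fin a)) l + b l := by
      rw [← e3]
      exact e2
    rw [e4, gm_apply]
  have h2 : dd k (fun q => F' (S'.σ j (θ q)) l) z =
      ∑ x, gm G l x * dd k (fun q => F (S.σ i q) x) z := by
    have e1 : fderiv ℂ (fun q => F' (S'.σ j (θ q)) l + c' κ l) z =
        fderiv ℂ (fun q => ∑ x, gm G l x * F (S.σ i q) x + b l) z := h1.fderiv_eq
    rw [fderiv_add_const, fderiv_add_const] at e1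
    have e2 : HasFDerivAt (fun q => ∑ x, gm G l x * F (S.σ i q) x)
        (∑ x, gm G l x • fderiv ℂ (fun q => F (S.σ i q) x) z) z :=
      HasFDerivAt.fun_sum fun x _ => (hd x).hasFDerivAt.const_mul _
    rw [e2.fderiv] at e1
    show fderiv ℂ (fun q => F' (S'.σ j (θ q)) l) z (Pi.single k 1) = _
    rw [e1, sum_apply]
    rfl
  rw [dd_comp h.1 h.2.1 hd' k] at h2
  rw [Matrix.mul_apply, Matrix.mul_apply]
  exact h2

end quo

variable {p d a m N : ℕ} {Z Y : Type} [TopologicalSpace Z] [T2Space Z]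
  [ChartedSpace (Cm (p + d)) Z] [IsManifold 𝓘(ℂ, Cm (p + d)) ω Z] [TopologicalSpace Y] [T2Space Y]
  [ChartedSpace (Cm p) Y] [IsManifold 𝓘(ℂ, Cm p) ω Y] {f : Z → Y}
  {w : Chart (p + d) Z → Cm (p + d) → Matrix (Fin (p + d)) (Fin (p + d)) ℂ}
  {B₁ : Matrix (Fin (a + a)) (Fin (a + a)) ℝ} {k : ℕ} {B : Matrix (Fin k) (Fin k) ℝ}
  {v : Fin k → ℝ} {R : ℝ}

/-- the geometric data -/
@[reducible] def lg (L : LocX (p := p) (d := d) f w a m N B₁ B v R) : LG (p := p) (d := d) f where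
  E := L.E
  Γ := L.Γ
  K := core L.Γ m
  𝓕 := L.𝓕
  q := L.q
  χ := L.χ
  model := L.model
  T' := L.T'
  hT' := L.hT'
  isOpen' := L.isOpen'

/-- the data of the periods of the torus -/
@[reducible] def dl (L : LocX (p := p) (d := d) f w a m N B₁ B v R) :
    DLocE (p := p) (d := d) f w m B₁ a where
  E := L.E
  Γ := L.Γ
  𝓕 := L.𝓕
  q := L.q
  χ := L.χ
  model := L.model
  W := L.W
  pull := L.pull
  kfam := L.kfam
  M := L.M
  form := L.form
  T' := L.T'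
  hT' := L.hT'
  isOpen' := L.isOpen'
  F := L.F
  c := L.c
  bas := L.bas
  holF := L.holF
  holc := L.holc

variable (L : LocX (p := p) (d := d) f w a m N B₁ B v R)

/-- the 1-forms -/
def uL (i : IX (lg L)) (r : Cm p × Cm d) : Matrix (Fin a) (Fin d) ℂ :=
  Matrix.of fun j k => dd k (fun z => L.F r.1 (sg (lg L) i r.1 z) j) r.2

theorem uL_eq {t : Cm p} (ht : t ∈ L.T') :
    dF (sub (L.𝓕.at t (L.hT' ht)) (core L.Γ m)) (L.F t) = fun i z => uL L i (t, z) := rfl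

theorem analytic_uL (i : IX (lg L)) {t : Cm p} (ht : t ∈ L.T') {z : Cm d}
    (hz : z ∈ ball (0 : Cm d) 3) (j : Fin a) (l : Fin d) :
    AnalyticAt ℂ (fun q => uL L i q j l) (t, z) :=
  analyticAt_dd2 (g := fun q : Cm p × Cm d => L.F q.1 (sg (lg L) i q.1 q.2) j)
    (L.holF i t ht z hz j) l

/-- the form -/
def dU (i : IX (lg L)) (r : Cm p × Cm d) : ℂ := dt (uL L i r) (L.s i r) ^ N

theorem analytic_dU (i : IX (lg L)) {t : Cm p} (ht : t ∈ L.T') {z : Cm d}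
    (hz : z ∈ ball (0 : Cm d) 3) : AnalyticAt ℂ (fun q => dt (uL L i q) (L.s i q)) (t, z) :=
  analyticAt_dt (fun j l => analytic_uL L i ht hz j l) fun j l => L.hols i t ht z hz j l

theorem gen {t : Cm p} (ht : t ∈ L.T') :
    GenU (quo (sub (L.𝓕.at t (L.hT' ht)) (core L.Γ m))) (fun i z => uL L i (t, z))
      (fun i z => L.s i (t, z)) := L.gen t ht

/-- **it is an invariant `2 N`-canonical form** -/
theorem isND_dU (had : a + 2 ≤ d) : IsND (lg L) (2 * N) (dU L) where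
  hol i t ht z hz := (analytic_dU L i ht hz).pow _
  change t ht i j z hz z' hz' γ θ h1 h2 h3 := by
    have h4 := dt_inv (S := L.𝓕.at t (L.hT' ht)) (K := core L.Γ m) (by omega) (gen L ht) hz hz'
      h1 h2 h3
    rw [L.index] at h4
    exact h4

variable {L}

/-- the norm of the form -/
theorem norm_dU (had : a + 2 ≤ d) (hN : 0 < N)
    (hf : ContMDiff 𝓘(ℂ, Cm (p + d)) 𝓘(ℂ, Cm p) ω f) {q : Cm d → Z} {O : Set (Cm d)}
    (hO : IsOpen O) (hq : ∀ v ∈ O, ContMDiffAt 𝓘(ℂ, Cm d) 𝓘(ℂ, Cm (p + d)) ω q v)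
    (hinj : InjOn q O) {y : Y} (hqy : ∀ v ∈ O, f (q v) = y) (hy : y ∈ U (lg L)) :
    ∫⁻ u in O, ‖pull (Cm (p + d)) (eta (lg L) (2 * N) (dU L)) q u‖ₑ ^ (2 / ((2 * N : ℕ) : ℝ)) ≤
      ENNReal.ofReal (volT (quo (sub (L.𝓕.at (L.χ y) (L.hT' hy.2)) (core L.Γ m)))
        (dF (sub (L.𝓕.at (L.χ y) (L.hT' hy.2)) (core L.Γ m)) (L.F (L.χ y)))
        (fun i z => L.s i (L.χ y, z))) := by
  have h1 : volT (quo (sub (L.𝓕.at (L.χ y) (L.hT' hy.2)) (core L.Γ m)))
        (dF (sub (L.𝓕.at (L.χ y) (L.hT' hy.2)) (core L.Γ m)) (L.F (L.χ y)))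
        (fun i z => L.s i (L.χ y, z)) = ((SK (lg L) hy).int fun i z =>
          ((‖dt (uL L i (L.χ y, z)) (L.s i (L.χ y, z))‖ : ℝ) : ℂ)).re := by
    rw [uL_eq L hy.2]
    exact congrArg Complex.re (quo_int (sub (L.𝓕.at (L.χ y) (L.hT' hy.2)) (core L.Γ m)) _)
  rw [h1]
  refine lint_etaO (isND_dU L had) hf (by omega) hO hq hinj hqy hy (fun i => ?_)
    (fun i z => norm_nonneg _) ?_
  · refine ContinuousOn.norm fun z hz => ?_
    have h2 := analytic_dU L i hy.2 hz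
    exact (h2.continuousAt.comp (f := fun z : Cm d => (L.χ y, z))
      (by fun_prop)).continuousWithinAt
  · intro i z hz
    have hc' : (N : ℝ) ≠ 0 := by exact_mod_cast hN.ne'
    simp only [dU]
    rw [enorm_pow, ← ENNReal.rpow_natCast, ← ENNReal.rpow_mul]
    have h2 : (N : ℝ) * (2 / ((2 * N : ℕ) : ℝ)) = 1 := by
      push_cast
      field_simp
    rw [h2, ENNReal.rpow_one, ← ofReal_norm]

end Vale.Agent.P281.H511.HKT
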